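import Claimed.Agent.R256.Nm.Pha.Tan

/-!
# Row 256, unit NM, sub-block NM-PHA, file 10: THE EXITS OF `nm_pha_geo_core`      (helper79; prefix `nm_px`, exits `nm_pha_*`)

* `NmRt.Str r π` : strictness of the quadratic branch of a clipped template (`b a + v < b1 a`).   Coarse sides: it follows from `NmRt.Ok.cq` (`nm_px_str_coarse`).
* `nmPxK r π pk` : the constant of `NmRt.Sm`;   `nm_px_sm` : `0 < h ≤ μ / (K + 1)`, `μ ≤` the three margins  ⟹  `NmRt.Sm`.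
* `nm_px_sl_patch` : the slack on a closed rectangle is at least the minimum over two corners;   `nm_px_aff` : affine functions.
* EXITS   `nm_pha_tan_geo_str` (= `nm_tan_geo` for roots with `Str`),   `nm_pha_geo_patch_str` (= `lay_port_geo` for patches with `Str`).
-/

set_option autoImplicit false

namespace Claimed.Agent.R256

open Claimed.Agent.R255
open Claimed.Agent.R255.FLaw (pair)
open Classical

noncomputable section

/-- strictness of the quadratic branch of a clipped template -/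
def NmRt.Str (r : NmRt) (π : SfPar) : Prop := r.σ.lin = false → r.q.tp = NmTp.clip → r.q.ds.b r.a + r.v < π.b1 r.a

/-- the constant of `NmRt.Sm` -/
def nmPxK (r : NmRt) (π : SfPar) (pk : ItPk) : ℝ :=
  (2 + r.c π) * (∑ l ∈ pk.Lam, |l|) + 2 * pk.K + (1 + r.q.ds.bs + |π.q - π.J|) * (∑ l ∈ pk.Lam, |l|)

theorem nm_px_eqns_cite : True := by
  have := @NmRt.Str.eq_1; have := @nmPxK.eq_1
  trivial

/-- coarse sides are strict -/
theorem nm_px_str_coarse {π : SfPar} {r : NmRt} {Λ : ℝ} (hr : r.Ok π Λ) (he : r.σ.exact = false) : r.Str π :=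
  fun hl _ => lt_of_lt_of_le (hr.cq he hl).1 (min_le_left _ _)

/-- `NmRt.Ok` reads only `(q, σ, a, v)` -/
theorem nm_px_ok_h {π : SfPar} {r : NmRt} {Λ : ℝ} (H : r.Ok π Λ) (g : ℝ) : NmRt.Ok { r with h := g } π Λ :=
  { q := H.q, g0 := H.g0, ha := H.ha, hv := H.hv, rate := H.rate, hyb := H.hyb, brq := H.brq, brl := H.brl, anc := H.anc, cq := H.cq,
    eq := H.eq }

/-- **the gap is small** as soon as `h ≤ μ / (K + 1)` -/
theorem nm_px_sm {π : SfPar} (hπ : π.Valid) {r : NmRt} {Λ : ℝ} (hr : r.Ok π Λ) {pk : ItPk} (hpk : pk.Ok) {μ : ℝ} (_hμ : 0 < μ)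
    (h1 : μ ≤ r.sl π / 2)
    (h2 : r.σ.lin = false → r.q.tp = NmTp.clip → μ ≤ π.b1 r.a - r.q.ds.b r.a - r.v)
    (h3 : r.σ.lin = true → r.q.tp = NmTp.clip → μ ≤ r.q.ds.b r.a + r.v - π.b1 r.a)
    (hh : 0 < r.h) (hh0 : r.h ≤ μ / (nmPxK r π pk + 1)) : r.Sm π pk := by
  have hbs := (nm_fam_ok π hπ r.q hr.q).bs0
  have hc := hr.rate
  have hK := hpk.2.1
  have habs := abs_nonneg (π.q - π.J)
  set Lm : ℝ := ∑ l ∈ pk.Lam, |l| with hLm
  have hLm0 : 0 ≤ Lm := Finset.sum_nonneg fun l _ => abs_nonneg l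
  have hle : ∀ l ∈ pk.Lam, l ≤ Lm := fun l hl =>
    (le_abs_self l).trans (Finset.single_le_sum (f := fun l => |l|) (fun i _ => abs_nonneg i) hl)
  have hpos : ∀ l ∈ pk.Lam, 0 < l := hpk.2.2.2.2.2.1
  have hKK : 0 ≤ nmPxK r π pk := by unfold nmPxK; positivity
  have hmain : (nmPxK r π pk + 1) * r.h ≤ μ := by
    rw [le_div_iff₀ (by linarith)] at hh0
    linarith
  have e : nmPxK r π pk = (2 + r.c π) * Lm + 2 * pk.K + (1 + r.q.ds.bs + |π.q - π.J|) * Lm := rfl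
  have t1 : 0 ≤ (2 + r.c π) * Lm := by positivity
  have t2 : 0 ≤ (1 + r.q.ds.bs + |π.q - π.J|) * Lm := by positivity
  refine ⟨fun l hl => ?_, fun ha hb l hl => ?_, fun ha hb l hl => ?_⟩
  · have a1 : (2 + r.c π) * l ≤ (2 + r.c π) * Lm := mul_le_mul_of_nonneg_left (hle l hl) (by linarith)
    have a2 : (2 + r.c π) * l * r.h ≤ (nmPxK r π pk + 1) * r.h := mul_le_mul_of_nonneg_right (by rw [e]; linarith) hh.le
    linarith
  · have a1 : (1 + r.q.ds.bs + |π.q - π.J|) * l ≤ (1 + r.q.ds.bs + |π.q - π.J|) * Lm := mul_le_mul_of_nonneg_left (hle l hl) (by linarith)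
    have a2 : (1 + r.q.ds.bs + |π.q - π.J|) * l * r.h ≤ (nmPxK r π pk + 1) * r.h := mul_le_mul_of_nonneg_right (by rw [e]; linarith) hh.le
    linarith [h2 ha hb]
  · have a1 : (1 + r.q.ds.bs + |π.q - π.J|) * l ≤ (1 + r.q.ds.bs + |π.q - π.J|) * Lm := mul_le_mul_of_nonneg_left (hle l hl) (by linarith)
    have a2 : (2 * pk.K + (1 + r.q.ds.bs + |π.q - π.J|) * l) * r.h ≤ (nmPxK r π pk + 1) * r.h :=
      mul_le_mul_of_nonneg_right (by rw [e]; linarith) hh.le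
    linarith [h3 ha hb]

/-- an affine function on a segment is at least its minimum over the endpoints -/
theorem nm_px_aff (α β a0 a1 a : ℝ) (h0 : a0 ≤ a) (h1 : a ≤ a1) : min (α + β * a0) (α + β * a1) ≤ α + β * a := by
  rcases le_total 0 β with hβ | hβ
  · exact (min_le_left _ _).trans (by nlinarith)
  · exact (min_le_right _ _).trans (by nlinarith)

/-- the slack on a closed rectangle of roots -/
theorem nm_px_sl_patch {π : SfPar} (hπ : π.Valid) {r0 : NmRt} {Λ a0 a1 v0 v1 : ℝ}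
    (hok : ∀ a v : ℝ, a0 ≤ a → a ≤ a1 → v0 ≤ v → v ≤ v1 → NmRt.Ok { r0 with a := a, v := v } π Λ)
    {a v : ℝ} (h1 : a0 ≤ a) (h2 : a ≤ a1) (h3 : v0 ≤ v) (h4 : v ≤ v1) :
    min (NmRt.sl { r0 with a := a0, v := v0 } π) (NmRt.sl { r0 with a := a1, v := v1 } π) ≤ NmRt.sl { r0 with a := a, v := v } π := by
  have hr := hok a v h1 h2 h3 h4
  cases he : r0.σ.exact with
  | false =>
    refine (min_le_left _ _).trans ?_
    simp only [NmRt.sl, he, Bool.false_eq_true, if_false]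
    linarith
  | true =>
    refine (min_le_right _ _).trans ?_
    cases hl : r0.σ.lin with
    | true => simp only [NmRt.sl, he, hl, if_true]; exact le_rfl
    | false =>
      simp only [NmRt.sl, he, hl, if_true, Bool.false_eq_true, if_false]
      have hG : (⟨1 / 2, π, r0.q, a, v, a1, v1⟩ : NmG).Ok :=
        ⟨by norm_num, by norm_num, nm_fam_ok π hπ r0.q hr.q, h2, h4⟩
      have := nm_l_mono hG
      simp only at this
      linarith

/-- **EXIT, uniform on a closed rectangle of roots**, for patches with strict quadratic branch -/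
theorem nm_pha_geo_patch_str (π : SfPar) (hπ : π.Valid) (C0 τ κ0 : ℝ) (r0 : NmRt) (a0 a1 v0 v1 : ℝ) (haa : a0 ≤ a1) (hvv : v0 ≤ v1)
    (hok : ∀ a v : ℝ, a0 ≤ a → a ≤ a1 → v0 ≤ v → v ≤ v1 → NmRt.Ok { r0 with a := a, v := v } π 2)
    (hstr : ∀ a v : ℝ, a0 ≤ a → a ≤ a1 → v0 ≤ v → v ≤ v1 → NmRt.Str { r0 with a := a, v := v } π)
    (hB : 3 ≤ r0.B) (pk : ItPk) (hpk : pk.Ok) :
    ∃ h0 : ℝ, 0 < h0 ∧ ∀ h : ℝ, h ≤ h0 → ∀ a v : ℝ, a0 ≤ a → a ≤ a1 → v0 ≤ v → v ≤ v1 →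
    NmRt.Fits { r0 with a := a, v := v, h := h } π pk →
    NmA π C0 τ κ0 fun acc D => ∃ dsp : ℝ → NmNm → NmNm → ItDsp,
      ∀ p : ItPar, r0.Reg π (r0.B + 1) p → NmGeo (nmTan D π { r0 with a := a, v := v, h := h } dsp) p pk acc := by
  -- the margins at the corners
  set m1 : ℝ := min (NmRt.sl { r0 with a := a0, v := v0 } π) (NmRt.sl { r0 with a := a1, v := v1 } π) / 2 with hm1
  set g : ℝ → ℝ → ℝ := fun a v => π.b1 a - r0.q.ds.b a - v with hg
  set m2 : ℝ := if r0.σ.lin = false ∧ r0.q.tp = NmTp.clip then min (g a0 v1) (g a1 v1) else 1 with hm2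
  set m3 : ℝ := if r0.σ.lin = true ∧ r0.q.tp = NmTp.clip then min (-(g a0 v0)) (-(g a1 v0)) else 1 with hm3
  have p1 : 0 < m1 := by
    have q0 := nm_ph_sl_pos (hok a0 v0 le_rfl haa le_rfl hvv)
    have q1 := nm_ph_sl_pos (hok a1 v1 haa le_rfl hvv le_rfl)
    have := lt_min q0 q1
    rw [hm1]; linarith
  have p2 : 0 < m2 := by
    rw [hm2]
    split_ifs with hc
    · have q0 := hstr a0 v1 le_rfl haa hvv le_rfl hc.1 hc.2
      have q1 := hstr a1 v1 haa le_rfl hvv le_rfl hc.1 hc.2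
      simp only at q0 q1
      exact lt_min (by simp only [hg]; linarith) (by simp only [hg]; linarith)
    · exact one_pos
  have p3 : 0 < m3 := by
    rw [hm3]
    split_ifs with hc
    · have aux : ∀ a v : ℝ, a0 ≤ a → a ≤ a1 → v0 ≤ v → v ≤ v1 → π.b1 a < r0.q.ds.b a + v := by
        intro a v h1 h2 h3 h4
        rcases (hok a v h1 h2 h3 h4).brl hc.1 with h | h
        · have h' : r0.q.tp = NmTp.plin := h
          rw [hc.2] at h'
          cases h'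
        · exact h.2.2
      have q0 := aux a0 v0 le_rfl haa le_rfl hvv
      have q1 := aux a1 v0 haa le_rfl le_rfl hvv
      exact lt_min (by simp only [hg]; linarith) (by simp only [hg]; linarith)
    · exact one_pos
  set μ : ℝ := min m1 (min m2 m3) with hμ
  have hμ0 : 0 < μ := lt_min p1 (lt_min p2 p3)
  have hK0 : 0 ≤ nmPxK r0 π pk := by
    have hr := hok a0 v0 le_rfl haa le_rfl hvv
    have hbs : 0 ≤ r0.q.ds.bs := (nm_fam_ok π hπ r0.q hr.q).bs0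
    have hc : 0 < r0.c π := hr.rate
    have hK := hpk.2.1
    have hLm0 : 0 ≤ ∑ l ∈ pk.Lam, |l| := Finset.sum_nonneg fun l _ => abs_nonneg l
    have habs := abs_nonneg (π.q - π.J)
    unfold nmPxK
    positivity
  -- `g` is affine
  have gaff : ∀ a v : ℝ, g a v = (-(π.q - π.J) - r0.q.ds.b0 + r0.q.ds.bs * r0.q.ds.De - v) + ((π.q - π.J) - r0.q.ds.bs) * a := by
    intro a v
    simp only [hg, SfPar.b1, NmDs.b]
    ring
  refine ⟨μ / (nmPxK r0 π pk + 1), by positivity, fun h hh a v h1 h2 h3 h4 hF => ?_⟩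
  have hr : NmRt.Ok { r0 with a := a, v := v, h := h } π 2 := nm_px_ok_h (hok a v h1 h2 h3 h4) h
  have hS : NmRt.Sm { r0 with a := a, v := v, h := h } π pk := by
    refine nm_px_sm hπ hr hpk hμ0 ?_ ?_ ?_ hF.1 hh
    · have k := nm_px_sl_patch hπ hok h1 h2 h3 h4
      have k' : NmRt.sl { r0 with a := a, v := v, h := h } π = NmRt.sl { r0 with a := a, v := v } π := rfl
      rw [k']
      have : μ ≤ m1 := min_le_left _ _
      rw [hm1] at this
      linarith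
    · intro ha hb
      have ha' : r0.σ.lin = false := ha
      have hb' : r0.q.tp = NmTp.clip := hb
      have k1 : μ ≤ m2 := (min_le_right _ _).trans (min_le_left _ _)
      rw [hm2, if_pos ⟨ha', hb'⟩] at k1
      have k2 : min (g a0 v1) (g a1 v1) ≤ g a v1 := by
        rw [gaff a0 v1, gaff a1 v1, gaff a v1]
        exact nm_px_aff _ _ a0 a1 a h1 h2
      have k3 : g a v1 ≤ g a v := by simp only [hg]; linarith
      show μ ≤ g a v
      linarith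
    · intro ha hb
      have ha' : r0.σ.lin = true := ha
      have hb' : r0.q.tp = NmTp.clip := hb
      have k1 : μ ≤ m3 := (min_le_right _ _).trans (min_le_right _ _)
      rw [hm3, if_pos ⟨ha', hb'⟩] at k1
      have k2 : min (-(g a0 v0)) (-(g a1 v0)) ≤ -(g a v0) := by
        rw [gaff a0 v0, gaff a1 v0, gaff a v0]
        have := nm_px_aff (-(-(π.q - π.J) - r0.q.ds.b0 + r0.q.ds.bs * r0.q.ds.De - v0)) (-((π.q - π.J) - r0.q.ds.bs)) a0 a1 a h1 h2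
        have e : ∀ x : ℝ, -((-(π.q - π.J) - r0.q.ds.b0 + r0.q.ds.bs * r0.q.ds.De - v0) + ((π.q - π.J) - r0.q.ds.bs) * x)
            = -(-(π.q - π.J) - r0.q.ds.b0 + r0.q.ds.bs * r0.q.ds.De - v0) + -((π.q - π.J) - r0.q.ds.bs) * x := fun x => by ring
        rw [e a0, e a1, e a]
        exact this
      have k3 : -(g a v0) ≤ -(g a v) := by simp only [hg]; linarith
      show μ ≤ r0.q.ds.b a + v - π.b1 a
      have k4 : -(g a v) = r0.q.ds.b a + v - π.b1 a := by simp only [hg]; ring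
      linarith
  have core := nm_pha_geo_core π hπ C0 τ κ0 { r0 with a := a, v := v, h := h } hr hB pk hpk hS hF
  intro acc hacc
  obtain ⟨t0, ht0, H⟩ := core acc hacc
  exact ⟨t0, ht0, fun D hD hX => ⟨_, fun p hp => H D hD hX p hp⟩⟩

/-- **EXIT at one root**, strict quadratic branch -/
theorem nm_pha_tan_geo_str (π : SfPar) (hπ : π.Valid) (C0 τ κ0 : ℝ) (r : NmRt) (hr : r.Ok π 2) (hstr : r.Str π) (hB : 3 ≤ r.B) (pk : ItPk) (hpk : pk.Ok) :
    ∃ h0 : ℝ, 0 < h0 ∧ ∀ h : ℝ, h ≤ h0 → NmRt.Fits { r with h := h } π pk →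
    NmA π C0 τ κ0 fun acc D => ∃ dsp : ℝ → NmNm → NmNm → ItDsp,
      ∀ a : ItPar, r.Reg π (r.B + 1) a → NmGeo (nmTan D π { r with h := h } dsp) a pk acc := by
  have e : ∀ a v : ℝ, r.a ≤ a → a ≤ r.a → r.v ≤ v → v ≤ r.v → ({ r with a := a, v := v } : NmRt) = r := by
    intro a v h1 h2 h3 h4
    have ea : a = r.a := le_antisymm h2 h1
    have ev : v = r.v := le_antisymm h4 h3
    subst ea ev
    rfl
  obtain ⟨h0, hh0, H⟩ := nm_pha_geo_patch_str π hπ C0 τ κ0 r r.a r.a r.v r.v le_rfl le_rfl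
    (fun a v h1 h2 h3 h4 => by rw [e a v h1 h2 h3 h4]; exact hr) (fun a v h1 h2 h3 h4 => by rw [e a v h1 h2 h3 h4]; exact hstr) hB pk hpk
  exact ⟨h0, hh0, fun h hh hF => H h hh r.a r.v le_rfl le_rfl le_rfl le_rfl hF⟩

/-! ## strictness is part of `NmRt.Ok` (fields `cq`, `eq`): the exits VERBATIM      (helper143) -/

theorem nm_px_str {π : SfPar} {r : NmRt} {Λ : ℝ} (hr : r.Ok π Λ) : r.Str π := by
  cases he : r.σ.exact with
  | false => exact nm_px_str_coarse hr he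
  | true => exact fun hl htp => (hr.eq he hl).2 htp

/-- the form cited by `Lay/PatchBase.lean` (helper186); `_hstr` is no longer needed -/
theorem nm_pha_geo_rect (π : SfPar) (hπ : π.Valid) (C0 τ κ0 : ℝ) (r0 : NmRt) (a0 a1 v0 v1 : ℝ) (haa : a0 ≤ a1) (hvv : v0 ≤ v1)
    (hok : ∀ a v : ℝ, a0 ≤ a → a ≤ a1 → v0 ≤ v → v ≤ v1 → NmRt.Ok { r0 with a := a, v := v } π 2)
    (_hstr : r0.σ.exact = true → r0.σ.lin = false → r0.q.tp = NmTp.clip → ∀ a : ℝ, a0 ≤ a → a ≤ a1 → r0.q.ds.b a + v1 < π.b1 a)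
    (hB : 3 ≤ r0.B) (pk : ItPk) (hpk : pk.Ok) :
    ∃ h0 : ℝ, 0 < h0 ∧ ∀ h : ℝ, h ≤ h0 → ∀ a v : ℝ, a0 ≤ a → a ≤ a1 → v0 ≤ v → v ≤ v1 →
    NmRt.Fits { r0 with a := a, v := v, h := h } π pk →
    NmA π C0 τ κ0 fun acc D => ∃ dsp : ℝ → NmNm → NmNm → ItDsp,
      ∀ p : ItPar, r0.Reg π (r0.B + 1) p → NmGeo (nmTan D π { r0 with a := a, v := v, h := h } dsp) p pk acc :=
  nm_pha_geo_patch_str π hπ C0 τ κ0 r0 a0 a1 v0 v1 haa hvv hok (fun a v h1 h2 h3 h4 => nm_px_str (hok a v h1 h2 h3 h4)) hB pk hpk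

/-- the form of helper186 at one root -/
theorem nm_pha_geo_one (π : SfPar) (hπ : π.Valid) (C0 τ κ0 : ℝ) (r : NmRt) (hr : r.Ok π 2)
    (_hstr : r.σ.exact = true → r.σ.lin = false → r.q.tp = NmTp.clip → r.q.ds.b r.a + r.v < π.b1 r.a)
    (hB : 3 ≤ r.B) (pk : ItPk) (hpk : pk.Ok) :
    ∃ h0 : ℝ, 0 < h0 ∧ ∀ h : ℝ, h ≤ h0 → NmRt.Fits { r with h := h } π pk →
    NmA π C0 τ κ0 fun acc D => ∃ dsp : ℝ → NmNm → NmNm → ItDsp,
      ∀ a : ItPar, r.Reg π (r.B + 1) a → NmGeo (nmTan D π { r with h := h } dsp) a pk acc :=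
  nm_pha_tan_geo_str π hπ C0 τ κ0 r hr (nm_px_str hr) hB pk hpk

/-- **EXIT** = `lay_port_geo` / `lay_ri_geo` (closed rectangle unfolded; `Λ = 2`, `B1 = 3`) -/
theorem nm_pha_geo_patch (π : SfPar) (hπ : π.Valid) (C0 τ κ0 : ℝ) : ∃ Λ B1 : ℝ, 1 ≤ B1 ∧ ∀ (r0 : NmRt) (a0 a1 v0 v1 : ℝ), a0 ≤ a1 → v0 ≤ v1 →
    (∀ a v : ℝ, a0 ≤ a → a ≤ a1 → v0 ≤ v → v ≤ v1 → NmRt.Ok { r0 with a := a, v := v } π Λ) →
    B1 ≤ r0.B → ∀ pk : ItPk, pk.Ok → ∃ h0 : ℝ, 0 < h0 ∧ ∀ h : ℝ, h ≤ h0 → ∀ a v : ℝ, a0 ≤ a → a ≤ a1 → v0 ≤ v → v ≤ v1 →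
    NmRt.Fits { r0 with a := a, v := v, h := h } π pk →
    NmA π C0 τ κ0 fun acc D => ∃ dsp : ℝ → NmNm → NmNm → ItDsp,
      ∀ p : ItPar, r0.Reg π (r0.B + 1) p → NmGeo (nmTan D π { r0 with a := a, v := v, h := h } dsp) p pk acc :=
  ⟨2, 3, by norm_num, fun r0 a0 a1 v0 v1 haa hvv hok hB pk hpk =>
    nm_pha_geo_patch_str π hπ C0 τ κ0 r0 a0 a1 v0 v1 haa hvv hok (fun a v h1 h2 h3 h4 => nm_px_str (hok a v h1 h2 h3 h4)) hB pk hpk⟩

/-- **EXIT** = `nm_tan_geo` of `Nm/Contract.lean`, VERBATIM -/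
theorem nm_pha_tan_geo (π : SfPar) (hπ : π.Valid) (C0 τ κ0 : ℝ) : ∃ Λ B1 : ℝ, 1 ≤ B1 ∧ ∀ r : NmRt, r.Ok π Λ → B1 ≤ r.B → ∀ pk : ItPk, pk.Ok →
    ∃ h0 : ℝ, 0 < h0 ∧ ∀ h : ℝ, h ≤ h0 → NmRt.Fits { r with h := h } π pk →
    NmA π C0 τ κ0 fun acc D => ∃ dsp : ℝ → NmNm → NmNm → ItDsp,
      ∀ a : ItPar, r.Reg π (r.B + 1) a → NmGeo (nmTan D π { r with h := h } dsp) a pk acc :=
  ⟨2, 3, by norm_num, fun r hr hB pk hpk => nm_pha_tan_geo_str π hπ C0 τ κ0 r hr (nm_px_str hr) hB pk hpk⟩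

end

end Claimed.Agent.R256
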