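import Claimed.Agent.R256.Nm.Pha.Kit

/-!
# Row 256, unit NM, sub-block NM-PHA, file 4: LISTS OF NAMES IN ONE FRAME      (helper143; prefix `nm_ph`)

PAPER-FREE.   Two raw data `x`, `y` seen in the same frame `n` at `(a,v)`; their names at `(a, v')`, `v ≤ v'` (width names; `v' = v`: root names).
* `NmHu` : the frame coordinates of `x`, `y` are Heisenberg-close at the scale `s^(v'-v)` (unnormalised);  `NmIu` : isotropically close.
* `nm_ph_wid_q` (quadratic), `nm_ph_wid_l` (linear) : entries of the two names at `(a,v')` with the same earlier entries differ by a bounded number (linear, entry `Y`: by `O(s^-(v'-v))`).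
* `nm_ph_back` : two frames `n`, `m` in which two raw data with the same root name are seen.
-/

set_option autoImplicit false

namespace Claimed.Agent.R256

open Claimed.Agent.R255
open Classical

noncomputable section

/-- Heisenberg closeness of the frame coordinates at the scale `s^(v'-v)`, unnormalised -/
structure NmHu (s : ℝ) (π : SfPar) (q : NmQ) (a v v' C : ℝ) (x y : NmRaw) (n : NmNm) : Prop where
  X : NmO s ((x.fr s π q a v n).X - (y.fr s π q a v n).X) C v'
  B : NmO s ((x.fr s π q a v n).B - (y.fr s π q a v n).B) C (a + v')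
  P : NmO s ((x.fr s π q a v n).P - (y.fr s π q a v n).P) C (q.l π a v + (v' - v))
  Y : NmO s ((x.fr s π q a v n).Y - (y.fr s π q a v n).Y - 2 * (x.fr s π q a v n).X * ((x.fr s π q a v n).B - (y.fr s π q a v n).B)) C (a + 2 * v')
  N : NmO s ((x.fr s π q a v n).N - (y.fr s π q a v n).N - (x.fr s π q a v n).P * ((x.fr s π q a v n).X - (y.fr s π q a v n).X)) C
    (q.w π a v + 2 * (v' - v))
  D : NmO s ((x.fr s π q a v n).D - (y.fr s π q a v n).D - (x.fr s π q a v n).P * ((x.fr s π q a v n).B - (y.fr s π q a v n).B)) C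
    (a + q.w π a v + 2 * (v' - v))

/-- isotropic closeness of the frame coordinates at the scale `s^(v'-v)`, unnormalised (no `P`) -/
structure NmIu (s : ℝ) (π : SfPar) (q : NmQ) (a v v' C : ℝ) (x y : NmRaw) (n : NmNm) : Prop where
  X : NmO s ((x.fr s π q a v n).X - (y.fr s π q a v n).X) C v'
  B : NmO s ((x.fr s π q a v n).B - (y.fr s π q a v n).B) C (a + v')
  Y : NmO s ((x.fr s π q a v n).Y - (y.fr s π q a v n).Y) C (a + 2 * v + (v' - v))
  N : NmO s ((x.fr s π q a v n).N - (y.fr s π q a v n).N) C (q.w π a v + (v' - v))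
  D : NmO s ((x.fr s π q a v n).D - (y.fr s π q a v n).D) C (a + q.w π a v + (v' - v))

/-- bins of two `K s^b`-close numbers at the depth `b` -/
theorem nm_ph_cell_O {s : ℝ} (h0 : 0 < s) (h1 : s < 1) {b x y K : ℝ} (h : NmO s (x - y) K b) :
    |((nmCell s b x - nmCell s b y : ℤ) : ℝ)| ≤ 2 * K + 1 := by
  have := nm_cell_close h0 h1 b b h
  simpa using this

section seen

variable {s : ℝ} {π : SfPar} {q : NmQ} {a v : ℝ} {quad : Bool} {x : NmRaw} {n : NmNm}

theorem NmIn.ta (h : NmIn s π q a v quad x n) : x.ta s a = n.tv s a := by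
  unfold NmRaw.ta NmNm.tv; rw [nm_rep_val, h.t]

theorem NmIn.Ra (h : NmIn s π q a v quad x n) : x.Ra s q a = n.Rv s q a := by
  have := h.R
  unfold NmRaw.Rc at this
  unfold NmRaw.Ra NmNm.Rv; rw [nm_rep_val, this]

theorem NmIn.ka (h : NmIn s π q a v quad x n) : x.ka s q a = n.kv s q a := by
  have := h.k
  unfold NmRaw.kc at this
  unfold NmRaw.ka NmNm.kv; rw [nm_rep_val, this]

/-- the frame coordinate `P` is `Lraw - L` -/
theorem NmIn.frP (h : NmIn s π q a v quad x n) : (x.fr s π q a v n).P = x.Lraw s q a - n.Lv s π q a v := by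
  unfold NmRaw.Lraw
  rw [h.ta, h.Ra, h.ka]
  rfl

end seen

/-- **quadratic branch**: names at `(a, v')` of two raw data which are Heisenberg-close in one frame -/
theorem nm_ph_wid_q {s : ℝ} (h0 : 0 < s) (h1 : s < 1) {π : SfPar} {q : NmQ} (hg : q.g = 0) {a v v' C : ℝ}
    (hl : q.l π a v' = q.l π a v + (v' - v)) {quad : Bool} {n : NmNm} {x y : NmRaw} (hx : NmIn s π q a v quad x n) (hy : NmIn s π q a v quad y n)
    (hc : NmHu s π q a v v' C x y n) (i : Fin 10)
    (hp : ∀ j < i, nmVec (x.name s π q a v') j = nmVec (y.name s π q a v') j) :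
    |((nmVec (x.name s π q a v') i - nmVec (y.name s π q a v') i : ℤ) : ℝ)| ≤ 6 * C + 1 := by
  have hC : 0 ≤ C := hc.X.nonneg h0
  have w1 := nm_w_eq q π a v
  have w2 := nm_w_eq q π a v'
  have tx := hx.ta
  have ty := hy.ta
  have Rx := hx.Ra
  have Ry := hy.Ra
  have kx := hx.ka
  have ky := hy.ka
  have z0 : |(((0 : ℤ)) : ℝ)| ≤ 6 * C + 1 := by simp; linarith
  have oX : NmO s (x.z.X - y.z.X) C v' := hc.X.congr (by simp only [NmRaw.fr]; ring)
  have oB : NmO s (x.z.Bt (n.tv s a) - y.z.Bt (n.tv s a)) C (a + v') := hc.B.congr (by simp only [NmRaw.fr]; ring)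
  fin_cases i
  · show |(((x.name s π q a v').kb - (y.name s π q a v').kb : ℤ) : ℝ)| ≤ _
    have e : (x.name s π q a v').kb = (y.name s π q a v').kb := hx.kb.trans hy.kb.symm
    rw [e, sub_self]; exact z0
  · show |(((x.name s π q a v').t - (y.name s π q a v').t : ℤ) : ℝ)| ≤ _
    have e : (x.name s π q a v').t = (y.name s π q a v').t := hx.t.trans hy.t.symm
    rw [e, sub_self]; exact z0
  · show |(((x.name s π q a v').k - (y.name s π q a v').k : ℤ) : ℝ)| ≤ _
    have e : (x.name s π q a v').k = (y.name s π q a v').k := hx.k.trans hy.k.symm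
    rw [e, sub_self]; exact z0
  · show |(((x.name s π q a v').R - (y.name s π q a v').R : ℤ) : ℝ)| ≤ _
    have e : (x.name s π q a v').R = (y.name s π q a v').R := hx.R.trans hy.R.symm
    rw [e, sub_self]; exact z0
  · show |((nmCell s v' x.z.X - nmCell s v' y.z.X : ℤ) : ℝ)| ≤ _
    exact (nm_ph_cell_O h0 h1 oX).trans (by linarith)
  · show |((nmCell s (a + v') (x.z.Bt (x.ta s a)) - nmCell s (a + v') (y.z.Bt (y.ta s a)) : ℤ) : ℝ)| ≤ _
    rw [tx, ty]
    exact (nm_ph_cell_O h0 h1 oB).trans (by linarith)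
  · show |((nmCell s (q.l π a v') (x.Lraw s q a) - nmCell s (q.l π a v') (y.Lraw s q a) : ℤ) : ℝ)| ≤ _
    have o : NmO s (x.Lraw s q a - y.Lraw s q a) C (q.l π a v') := by
      rw [hl]
      exact hc.P.congr (by rw [hx.frP, hy.frP]; ring)
    exact (nm_ph_cell_O h0 h1 o).trans (by linarith)
  · show |((nmCell s (a + 2 * v') (x.z.Yt (x.ta s a) - 2 * nmRep s v' x.z.X * x.z.Bt (x.ta s a))
      - nmCell s (a + 2 * v') (y.z.Yt (y.ta s a) - 2 * nmRep s v' y.z.X * y.z.Bt (y.ta s a)) : ℤ) : ℝ)| ≤ _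
    have pX : nmCell s v' x.z.X = nmCell s v' y.z.X := hp 4 (by decide)
    rw [tx, ty, ← nm_ph_rep_congr pX]
    have o1 : NmO s (x.z.X - nmRep s v' x.z.X) 1 v' := NmO.of_le (nm_rep_abs h0 h1 v' x.z.X)
    have o : NmO s ((x.z.Yt (n.tv s a) - 2 * nmRep s v' x.z.X * x.z.Bt (n.tv s a))
        - (y.z.Yt (n.tv s a) - 2 * nmRep s v' x.z.X * y.z.Bt (n.tv s a))) (3 * C) (a + 2 * v') := by
      have u := hc.Y.add (((o1.mul h0 oB).smul 2).weak h0 h1 (K' := 2 * C) (by norm_num) (by linarith : a + 2 * v' ≤ v' + (a + v')))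
      exact (u.congr (by simp only [NmRaw.fr]; ring)).weak h0 h1 (by linarith) le_rfl
    exact (nm_ph_cell_O h0 h1 o).trans (by linarith)
  · show |((nmCell s (q.w π a v' - q.g) (x.Nres s π q a v') - nmCell s (q.w π a v' - q.g) (y.Nres s π q a v') : ℤ) : ℝ)| ≤ _
    have pL : nmCell s (q.l π a v') (x.Lraw s q a) = nmCell s (q.l π a v') (y.Lraw s q a) := hp 6 (by decide)
    have eL : y.La s π q a v' = x.La s π q a v' := (nm_ph_rep_congr pL).symm
    have o1 : NmO s (x.Lraw s q a - x.La s π q a v') 1 (q.l π a v') := NmO.of_le (nm_rep_abs h0 h1 _ _)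
    have o : NmO s (x.Nres s π q a v' - y.Nres s π q a v') (2 * C) (q.w π a v' - q.g) := by
      have u := (hc.N.weak h0 h1 le_rfl (by linarith : q.w π a v' - q.g ≤ q.w π a v + 2 * (v' - v))).add
        ((o1.mul h0 oX).weak h0 h1 (K' := C) (by linarith) (by linarith : q.w π a v' - q.g ≤ q.l π a v' + v'))
      refine (u.congr ?_).weak h0 h1 (by linarith) le_rfl
      rw [hx.frP]
      unfold NmRaw.Nres
      rw [eL, tx, ty, Rx, Ry, kx, ky]
      simp only [NmRaw.fr]
      ring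
    exact (nm_ph_cell_O h0 h1 o).trans (by linarith)
  · show |((nmCell s (a + q.w π a v' - q.g) (x.Dres s π q a v') - nmCell s (a + q.w π a v' - q.g) (y.Dres s π q a v') : ℤ) : ℝ)| ≤ _
    have pL : nmCell s (q.l π a v') (x.Lraw s q a) = nmCell s (q.l π a v') (y.Lraw s q a) := hp 6 (by decide)
    have eL : y.La s π q a v' = x.La s π q a v' := (nm_ph_rep_congr pL).symm
    have o1 : NmO s (x.Lraw s q a - x.La s π q a v') 1 (q.l π a v') := NmO.of_le (nm_rep_abs h0 h1 _ _)
    have o : NmO s (x.Dres s π q a v' - y.Dres s π q a v') (2 * C) (a + q.w π a v' - q.g) := by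
      have u := (hc.D.weak h0 h1 le_rfl (by linarith : a + q.w π a v' - q.g ≤ a + q.w π a v + 2 * (v' - v))).add
        ((o1.mul h0 oB).weak h0 h1 (K' := C) (by linarith) (by linarith : a + q.w π a v' - q.g ≤ q.l π a v' + (a + v')))
      refine (u.congr ?_).weak h0 h1 (by linarith) le_rfl
      rw [hx.frP]
      unfold NmRaw.Dres
      rw [eL, tx, ty, Rx, Ry, kx, ky]
      simp only [NmRaw.fr]
      ring
    exact (nm_ph_cell_O h0 h1 o).trans (by linarith)

/-- the bounds of the differences of the entries, linear branch (`E = s^-(v'-v)`) -/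
def nmKw (C E : ℝ) : Fin 10 → ℝ := ![0, 0, 0, 0, 2 * C + 1, 2 * C + 1, 0, 14 * C * E + 1, 2 * C + 1, 2 * C + 1]

/-- linear branch: the linear cut at `(a, v')` is the one of the frame -/
theorem NmIn.La {s : ℝ} {π : SfPar} {q : NmQ} {a v v' : ℝ} {x : NmRaw} {n : NmNm} (h : NmIn s π q a v false x n)
    (hl : q.l π a v' = q.l π a v) : x.La s π q a v' = n.Lv s π q a v := by
  have := h.L rfl
  unfold NmRaw.Lc at this
  unfold NmRaw.La NmNm.Lv
  rw [hl, nm_rep_val, this]

/-- **linear branch**: names at `(a, v')` of two raw data which are isotropically close in one frame -/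
theorem nm_ph_wid_l {s : ℝ} (h0 : 0 < s) (h1 : s < 1) {π : SfPar} {q : NmQ} (hg : q.g = 0) {a v v' C : ℝ} (hv : v ≤ v')
    (hl : q.l π a v' = q.l π a v) {n : NmNm} {x y : NmRaw} (hx : NmIn s π q a v false x n) (hy : NmIn s π q a v false y n)
    (hc : NmIu s π q a v v' C x y n) (i : Fin 10)
    (hp : ∀ j < i, nmVec (x.name s π q a v') j = nmVec (y.name s π q a v') j) :
    |((nmVec (x.name s π q a v') i - nmVec (y.name s π q a v') i : ℤ) : ℝ)| ≤ nmKw C (s ^ (-(v' - v))) i := by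
  have hC : 0 ≤ C := hc.X.nonneg h0
  have w1 := nm_w_eq q π a v
  have w2 := nm_w_eq q π a v'
  have tx := hx.ta
  have ty := hy.ta
  have Rx := hx.Ra
  have Ry := hy.Ra
  have kx := hx.ka
  have ky := hy.ka
  have Lx := hx.La hl
  have Ly := hy.La hl
  have z0 : |(((0 : ℤ)) : ℝ)| ≤ 0 := by simp
  have oX : NmO s (x.z.X - y.z.X) C v' := hc.X.congr (by simp only [NmRaw.fr]; ring)
  have oB : NmO s (x.z.Bt (n.tv s a) - y.z.Bt (n.tv s a)) C (a + v') := hc.B.congr (by simp only [NmRaw.fr]; ring)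
  fin_cases i
  · show |(((x.name s π q a v').kb - (y.name s π q a v').kb : ℤ) : ℝ)| ≤ 0
    have e : (x.name s π q a v').kb = (y.name s π q a v').kb := hx.kb.trans hy.kb.symm
    rw [e, sub_self]; exact z0
  · show |(((x.name s π q a v').t - (y.name s π q a v').t : ℤ) : ℝ)| ≤ 0
    have e : (x.name s π q a v').t = (y.name s π q a v').t := hx.t.trans hy.t.symm
    rw [e, sub_self]; exact z0
  · show |(((x.name s π q a v').k - (y.name s π q a v').k : ℤ) : ℝ)| ≤ 0
    have e : (x.name s π q a v').k = (y.name s π q a v').k := hx.k.trans hy.k.symm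
    rw [e, sub_self]; exact z0
  · show |(((x.name s π q a v').R - (y.name s π q a v').R : ℤ) : ℝ)| ≤ 0
    have e : (x.name s π q a v').R = (y.name s π q a v').R := hx.R.trans hy.R.symm
    rw [e, sub_self]; exact z0
  · show |((nmCell s v' x.z.X - nmCell s v' y.z.X : ℤ) : ℝ)| ≤ 2 * C + 1
    exact nm_ph_cell_O h0 h1 oX
  · show |((nmCell s (a + v') (x.z.Bt (x.ta s a)) - nmCell s (a + v') (y.z.Bt (y.ta s a)) : ℤ) : ℝ)| ≤ 2 * C + 1
    rw [tx, ty]
    exact nm_ph_cell_O h0 h1 oB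
  · show |((nmCell s (q.l π a v') (x.Lraw s q a) - nmCell s (q.l π a v') (y.Lraw s q a) : ℤ) : ℝ)| ≤ 0
    have e : nmCell s (q.l π a v') (x.Lraw s q a) = nmCell s (q.l π a v') (y.Lraw s q a) := by
      rw [hl]; exact (hx.L rfl).trans (hy.L rfl).symm
    rw [e, sub_self]; exact z0
  · show |((nmCell s (a + 2 * v') (x.z.Yt (x.ta s a) - 2 * nmRep s v' x.z.X * x.z.Bt (x.ta s a))
      - nmCell s (a + 2 * v') (y.z.Yt (y.ta s a) - 2 * nmRep s v' y.z.X * y.z.Bt (y.ta s a)) : ℤ) : ℝ)| ≤ 14 * C * s ^ (-(v' - v)) + 1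
    have pX : nmCell s v' x.z.X = nmCell s v' y.z.X := hp 4 (by decide)
    rw [tx, ty, ← nm_ph_rep_congr pX]
    have o1 : NmO s (x.z.X - nmRep s v' x.z.X) 1 v := (NmO.of_le (nm_rep_abs h0 h1 v' x.z.X)).weak h0 h1 le_rfl hv
    have o2 : NmO s ((x.fr s π q a v n).X - (x.z.X - nmRep s v' x.z.X)) 3 v := by
      have : NmO s (x.fr s π q a v n).X 2 v := hx.X
      exact (this.sub o1).weak h0 h1 (by norm_num) le_rfl
    have o : NmO s ((x.z.Yt (n.tv s a) - 2 * nmRep s v' x.z.X * x.z.Bt (n.tv s a))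
        - (y.z.Yt (n.tv s a) - 2 * nmRep s v' x.z.X * y.z.Bt (n.tv s a))) (7 * C) (a + v + v') := by
      have u := (hc.Y.weak h0 h1 le_rfl (by linarith : a + v + v' ≤ a + 2 * v + (v' - v))).sub
        (((o2.mul h0 oB).smul 2).weak h0 h1 (K' := 6 * C) (by norm_num; linarith) (by linarith : a + v + v' ≤ v + (a + v')))
      exact (u.congr (by simp only [NmRaw.fr]; ring)).weak h0 h1 (by linarith) le_rfl
    have := nm_cell_close h0 h1 (a + v + v') (a + 2 * v') o
    have e : a + 2 * v' - (a + v + v') = v' - v := by ring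
    rw [e] at this
    calc _ ≤ 2 * (7 * C) * s ^ (-(v' - v)) + 1 := this
      _ = _ := by ring
  · show |((nmCell s (q.w π a v' - q.g) (x.Nres s π q a v') - nmCell s (q.w π a v' - q.g) (y.Nres s π q a v') : ℤ) : ℝ)| ≤ 2 * C + 1
    have o : NmO s (x.Nres s π q a v' - y.Nres s π q a v') C (q.w π a v' - q.g) := by
      refine ((hc.N.weak h0 h1 le_rfl (by linarith : q.w π a v' - q.g ≤ q.w π a v + (v' - v))).congr ?_)
      unfold NmRaw.Nres
      rw [Lx, Ly, tx, ty, Rx, Ry, kx, ky]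
      simp only [NmRaw.fr]
      ring
    exact nm_ph_cell_O h0 h1 o
  · show |((nmCell s (a + q.w π a v' - q.g) (x.Dres s π q a v') - nmCell s (a + q.w π a v' - q.g) (y.Dres s π q a v') : ℤ) : ℝ)| ≤ 2 * C + 1
    have o : NmO s (x.Dres s π q a v' - y.Dres s π q a v') C (a + q.w π a v' - q.g) := by
      refine ((hc.D.weak h0 h1 le_rfl (by linarith : a + q.w π a v' - q.g ≤ a + q.w π a v + (v' - v))).congr ?_)
      unfold NmRaw.Dres
      rw [Lx, Ly, tx, ty, Rx, Ry, kx, ky]
      simp only [NmRaw.fr]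
      ring
    exact nm_ph_cell_O h0 h1 o

/-- two frames in which two raw data with the same root name are seen -/
theorem nm_ph_back {s : ℝ} (h0 : 0 < s) (h1 : s < 1) {π : SfPar} {q : NmQ} (hg : q.g = 0) {a v : ℝ} {quad : Bool} {n m : NmNm} {x y : NmRaw}
    (hx : NmIn s π q a v quad x n) (hy : NmIn s π q a v quad y m) (hc : x.name s π q a v = y.name s π q a v) (i : Fin 10)
    (hp : ∀ j < i, nmVec n j = nmVec m j) : |((nmVec n i - nmVec m i : ℤ) : ℝ)| ≤ 30 := by
  have w1 := nm_w_eq q π a v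
  have z0 : |(((0 : ℤ)) : ℝ)| ≤ 30 := by simp
  have et : n.t = m.t := hx.t.symm.trans ((congrArg NmNm.t hc).trans hy.t)
  have eR : n.R = m.R := hx.R.symm.trans ((congrArg NmNm.R hc).trans hy.R)
  have ek : n.k = m.k := hx.k.symm.trans ((congrArg NmNm.k hc).trans hy.k)
  have etv : m.tv s a = n.tv s a := by unfold NmNm.tv; rw [et]
  have eRv : m.Rv s q a = n.Rv s q a := by unfold NmNm.Rv; rw [eR]
  have ekv : m.kv s q a = n.kv s q a := by unfold NmNm.kv; rw [ek]
  have tx := hx.ta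
  have ty := hy.ta.trans etv
  have Rx := hx.Ra
  have Ry := hy.Ra.trans eRv
  have kx := hx.ka
  have ky := hy.ka.trans ekv
  have cX : NmO s (x.z.X - y.z.X) 1 v := NmO.of_le (nm_close_of_cell h0 h1 (congrArg NmNm.X hc))
  have cB : NmO s (x.z.Bt (n.tv s a) - y.z.Bt (n.tv s a)) 1 (a + v) := by
    have := nm_close_of_cell h0 h1 (congrArg NmNm.B hc)
    rw [tx, ty] at this
    exact NmO.of_le this
  have fxX : NmO s (x.fr s π q a v n).X 2 v := hx.X
  have fyX : NmO s (y.fr s π q a v m).X 2 v := hy.X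
  have fxB : NmO s (x.fr s π q a v n).B 2 (a + v) := hx.B
  have fyB : NmO s (y.fr s π q a v m).B 2 (a + v) := hy.B
  have fxY : NmO s (x.fr s π q a v n).Y 2 (a + 2 * v) := hx.Y
  have fyY : NmO s (y.fr s π q a v m).Y 2 (a + 2 * v) := hy.Y
  have fxN : NmO s (x.fr s π q a v n).N 2 (q.w π a v) := hx.N
  have fyN : NmO s (y.fr s π q a v m).N 2 (q.w π a v) := hy.N
  have fxD : NmO s (x.fr s π q a v n).D 2 (a + q.w π a v) := hx.D
  have fyD : NmO s (y.fr s π q a v m).D 2 (a + q.w π a v) := hy.D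
  have eLa : y.La s π q a v = x.La s π q a v := (nm_ph_rep_congr (congrArg NmNm.L hc)).symm
  -- the own linear cut against the cut of the frame
  have oL : NmO s (x.La s π q a v - n.Lv s π q a v) 3 (q.l π a v) := by
    cases quad with
    | false =>
      rw [hx.La rfl, sub_self]
      exact NmO.zero h0 (by norm_num)
    | true =>
      have u1 : NmO s (x.Lraw s q a - x.La s π q a v) 1 (q.l π a v) := NmO.of_le (nm_rep_abs h0 h1 _ _)
      have u2 : NmO s (x.fr s π q a v n).P 2 (q.l π a v) := hx.P rfl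
      exact ((u2.sub u1).congr (by rw [hx.frP]; ring)).weak h0 h1 (by norm_num) le_rfl
  fin_cases i
  · show |((n.kb - m.kb : ℤ) : ℝ)| ≤ 30
    have e : n.kb = m.kb := hx.kb.symm.trans ((congrArg NmNm.kb hc).trans hy.kb)
    rw [e, sub_self]; exact z0
  · show |((n.t - m.t : ℤ) : ℝ)| ≤ 30
    rw [et, sub_self]; exact z0
  · show |((n.k - m.k : ℤ) : ℝ)| ≤ 30
    rw [ek, sub_self]; exact z0
  · show |((n.R - m.R : ℤ) : ℝ)| ≤ 30
    rw [eR, sub_self]; exact z0
  · show |((n.X - m.X : ℤ) : ℝ)| ≤ 30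
    have o : NmO s (nmVal s v n.X - nmVal s v m.X) 5 v :=
      (((cX.sub fxX).add fyX).congr (by simp only [NmRaw.fr, NmNm.Xv]; ring)).weak h0 h1 (by norm_num) le_rfl
    exact (nm_ph_val_close h0 h1 o).trans (by norm_num)
  · show |((n.B - m.B : ℤ) : ℝ)| ≤ 30
    have o : NmO s (nmVal s (a + v) n.B - nmVal s (a + v) m.B) 5 (a + v) :=
      (((cB.sub fxB).add fyB).congr (by simp only [NmRaw.fr, NmNm.Bv, etv]; ring)).weak h0 h1 (by norm_num) le_rfl
    exact (nm_ph_val_close h0 h1 o).trans (by norm_num)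
  · show |((n.L - m.L : ℤ) : ℝ)| ≤ 30
    cases quad with
    | false =>
      have e : n.L = m.L := (hx.L rfl).symm.trans ((congrArg NmNm.L hc).trans (hy.L rfl))
      rw [e, sub_self]; exact z0
    | true =>
      have cL : NmO s (x.Lraw s q a - y.Lraw s q a) 1 (q.l π a v) := NmO.of_le (nm_close_of_cell h0 h1 (congrArg NmNm.L hc))
      have u1 : NmO s (x.fr s π q a v n).P 2 (q.l π a v) := hx.P rfl
      have u2 : NmO s (y.fr s π q a v m).P 2 (q.l π a v) := hy.P rfl
      have o : NmO s (nmVal s (q.l π a v) n.L - nmVal s (q.l π a v) m.L) 5 (q.l π a v) :=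
        (((cL.sub u1).add u2).congr (by rw [hx.frP, hy.frP]; simp only [NmNm.Lv]; ring)).weak h0 h1 (by norm_num) le_rfl
      exact (nm_ph_val_close h0 h1 o).trans (by norm_num)
  · show |((n.Y - m.Y : ℤ) : ℝ)| ≤ 30
    have pX : n.X = m.X := hp 4 (by decide)
    have eXv : m.Xv s v = n.Xv s v := by unfold NmNm.Xv; rw [pX]
    have cY := nm_close_of_cell h0 h1 (congrArg NmNm.Y hc)
    rw [tx, ty, ← nm_ph_rep_congr (congrArg NmNm.X hc)] at cY
    have o1 : NmO s (x.z.X - nmRep s v x.z.X) 1 v := NmO.of_le (nm_rep_abs h0 h1 v x.z.X)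
    have o2 : NmO s ((x.fr s π q a v n).X - (x.z.X - nmRep s v x.z.X)) 3 v := (fxX.sub o1).weak h0 h1 (by norm_num) le_rfl
    have o3 : NmO s (2 * (((x.fr s π q a v n).X - (x.z.X - nmRep s v x.z.X)) * (x.z.Bt (n.tv s a) - y.z.Bt (n.tv s a)))) 6 (a + 2 * v) :=
      ((o2.mul h0 cB).smul 2).weak h0 h1 (by norm_num) (by linarith)
    have o : NmO s (nmVal s (a + 2 * v) n.Y - nmVal s (a + 2 * v) m.Y) 11 (a + 2 * v) :=
      (((((NmO.of_le cY).add o3).sub fxY).add fyY).congr (by simp only [NmRaw.fr, NmNm.Yv, etv, eXv]; ring)).weak h0 h1 (by norm_num) le_rfl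
    exact (nm_ph_val_close h0 h1 o).trans (by norm_num)
  · show |((n.N - m.N : ℤ) : ℝ)| ≤ 30
    have pL : n.L = m.L := hp 6 (by decide)
    have eLv : m.Lv s π q a v = n.Lv s π q a v := by unfold NmNm.Lv; rw [pL]
    have cN : NmO s (x.Nres s π q a v - y.Nres s π q a v) 1 (q.w π a v - q.g) := NmO.of_le (nm_close_of_cell h0 h1 (congrArg NmNm.N hc))
    have hw : q.w π a v - q.g = q.w π a v := by rw [hg, sub_zero]
    have o3 : NmO s ((x.La s π q a v - n.Lv s π q a v) * (x.z.X - y.z.X)) 3 (q.w π a v - q.g) :=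
      (oL.mul h0 cX).weak h0 h1 (by norm_num) (by linarith)
    have o : NmO s (nmVal s (q.w π a v - q.g) n.N - nmVal s (q.w π a v - q.g) m.N) 8 (q.w π a v - q.g) := by
      rw [← hw] at fxN fyN
      refine ((((cN.add o3).sub fxN).add fyN).congr ?_).weak h0 h1 (by norm_num) le_rfl
      unfold NmRaw.Nres
      rw [eLa, tx, ty, Rx, Ry, kx, ky]
      simp only [NmRaw.fr, NmNm.Nv, etv, eLv, eRv, ekv]
      ring
    exact (nm_ph_val_close h0 h1 o).trans (by norm_num)
  · show |((n.D - m.D : ℤ) : ℝ)| ≤ 30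
    have pL : n.L = m.L := hp 6 (by decide)
    have eLv : m.Lv s π q a v = n.Lv s π q a v := by unfold NmNm.Lv; rw [pL]
    have cD : NmO s (x.Dres s π q a v - y.Dres s π q a v) 1 (a + q.w π a v - q.g) := NmO.of_le (nm_close_of_cell h0 h1 (congrArg NmNm.D hc))
    have hw : a + q.w π a v - q.g = a + q.w π a v := by rw [hg, sub_zero]
    have o3 : NmO s ((x.La s π q a v - n.Lv s π q a v) * (x.z.Bt (n.tv s a) - y.z.Bt (n.tv s a))) 3 (a + q.w π a v - q.g) :=
      (oL.mul h0 cB).weak h0 h1 (by norm_num) (by linarith)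
    have o : NmO s (nmVal s (a + q.w π a v - q.g) n.D - nmVal s (a + q.w π a v - q.g) m.D) 8 (a + q.w π a v - q.g) := by
      rw [← hw] at fxD fyD
      refine ((((cD.add o3).sub fxD).add fyD).congr ?_).weak h0 h1 (by norm_num) le_rfl
      unfold NmRaw.Dres
      rw [eLa, tx, ty, Rx, Ry, kx, ky]
      simp only [NmRaw.fr, NmNm.Dv, etv, eLv, eRv, ekv]
      ring
    exact (nm_ph_val_close h0 h1 o).trans (by norm_num)

theorem nm_ph_list_eqns_cite : True := by
  have := @nmKw.eq_1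
  trivial

end

end Claimed.Agent.R256
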