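import Claimed.Agent.R256.Nm.Pha.Close
import Claimed.Agent.R256.Nm.Pha.List

/-!
# Row 256, unit NM, sub-block NM-PHA, file 5: `nm_rep` (Lemma names:common-phase)      (helper143; prefix `nm_ph`, exits `nm_pha_*`)

* `r.sl π` = THE EXPLICIT SLACK of a root: `a - A` (coarse side), `x_* - l(a,v)` (exact quadratic), `1` (exact linear).
* `nm_ph_slack` : `r.Ok π 2` gives the slack inequalities `NmSl` of a coarse side.      * `nm_ph_core` : two raw data sharing the side are `50 s^sl`-close in the frame of the second.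
* `nm_ph_in` : then the first is SEEN in the frame of the second.      * `nm_ph_list1`, `nm_ph_list2` : bounded lists.
* `nm_ph_doc` : what the representative gives at a charged row of a documented configuration.
* EXITS `nm_pha_rep_sl` (explicit slack, `t0` depends only on `e`), `nm_pha_rep_patch` (uniform on a rectangle), `nm_pha_rep` (= `nm_rep` of the contract, verbatim).
-/

set_option autoImplicit false

namespace Claimed.Agent.R256

open Claimed.Agent.R255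
open Claimed.Agent.R255.FLaw (pair)
open Classical

noncomputable section

/-- **the explicit slack of a root** -/
def NmRt.sl (r : NmRt) (π : SfPar) : ℝ :=
  if r.σ.exact then (if r.σ.lin then 1 else r.σ.xs - r.q.l π r.a r.v) else r.a - r.σ.A

theorem nm_ph_sl_pos {π : SfPar} {r : NmRt} {Λ : ℝ} (hr : r.Ok π Λ) : 0 < r.sl π := by
  unfold NmRt.sl
  cases he : r.σ.exact with
  | false =>
    simp only [Bool.false_eq_true, if_false]
    linarith [(hr.anc he).2.1]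
  | true =>
    cases hl : r.σ.lin with
    | false =>
      simp only [if_true, Bool.false_eq_true, if_false]
      linarith [(hr.eq he hl).1]
    | true => simp

/-- the slack inequalities of a coarse side -/
theorem nm_ph_slack {π : SfPar} (hπ : π.Valid) {r : NmRt} (hr : r.Ok π 2) (hco : r.σ.exact = false) :
    NmSl π r.q (!r.σ.lin) r.σ.A r.σ.V r.a r.v (r.a - r.σ.A) := by
  obtain ⟨hA0, hAa, hV, -⟩ := hr.anc hco
  have hq := nm_fam_ok π hπ r.q hr.q
  have hc := hr.rate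
  have hd : 0 < r.a - r.σ.A := by linarith
  have hJ := hπ.J0
  have habs := abs_nonneg π.q
  have w1 := nm_w_eq r.q π r.a r.v
  have w2 := nm_w_eq r.q π r.σ.A r.σ.V
  have hV2 : 2 * (r.a - r.σ.A) + 2 * (r.c π * (r.a - r.σ.A)) ≤ r.σ.V - r.v := by
    nlinarith [mul_nonneg (add_nonneg habs hJ) hd.le]
  have hcd : 0 < r.c π * (r.a - r.σ.A) := mul_pos hc hd
  cases hl : r.σ.lin with
  | false =>
    obtain ⟨htp, hla⟩ := hr.brq hl
    obtain ⟨-, hcq⟩ := hr.cq hco hl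
    have hce : r.c π = r.q.ds.bs := by unfold NmRt.c; rw [hl]; simp
    have hlA : r.q.l π r.σ.A r.σ.V = r.q.ds.b r.σ.A + r.σ.V := by
      unfold NmQ.l
      cases h : r.q.tp with
      | quad => rfl
      | clip => exact min_eq_left (hcq.le.trans (min_le_left _ _))
      | plin => exact absurd h htp
    have hb : r.q.ds.b r.a - r.q.ds.b r.σ.A = r.c π * (r.a - r.σ.A) := by
      rw [hce]; unfold NmDs.b; ring
    refine ⟨hd, hAa.le, by linarith, by linarith, fun _ => by linarith, by linarith, by linarith, fun _ => by linarith, fun _ => by linarith⟩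
  | true =>
    have htp : r.q.tp = NmTp.plin := by
      rcases hr.brl hl with h | ⟨h, -⟩
      · exact h
      · rw [hco] at h; exact absurd h (by simp)
    have hce : r.c π = π.q - π.J := by unfold NmRt.c; rw [hl]; simp
    have hla : ∀ a v, r.q.l π a v = π.b1 a := by
      intro a v; unfold NmQ.l; rw [htp]
    have hb : π.b1 r.a - π.b1 r.σ.A = r.c π * (r.a - r.σ.A) := by
      rw [hce]; unfold SfPar.b1; ring
    have hcut := hq.pl htp
    rw [hla] at w1 w2
    refine ⟨hd, hAa.le, by linarith, by linarith, fun h => by simp at h, by linarith, by linarith, fun h => absurd hcut h,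
      fun h => absurd hcut h⟩

/-- **two raw data sharing the value of the side** are `50 s^sl`-close in the frame of the second -/
theorem nm_ph_core {π : SfPar} (hπ : π.Valid) {r : NmRt} (hr : r.Ok π 2) {s : ℝ} (h0 : 0 < s) (h1 : s < 1) {x y : NmRaw}
    (hsh : NmSh s π r.q r.σ r.a x y) :
    nmPhDist (x.phase s π r.q r.a r.v (!r.σ.lin) (y.name s π r.q r.a r.v)) (y.phase s π r.q r.a r.v (!r.σ.lin) (y.name s π r.q r.a r.v))
      ≤ 50 * s ^ (r.sl π) := by
  have hq := nm_fam_ok π hπ r.q hr.q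
  cases he : r.σ.exact with
  | false =>
    have e : r.sl π = r.a - r.σ.A := by unfold NmRt.sl; rw [he]; simp
    rw [e]
    exact nm_ph_close_co h0 h1 hq hr.g0 (nm_ph_slack hπ hr he) x y (hsh.co he)
  | true =>
    cases hl : r.σ.lin with
    | false =>
      have e : r.sl π = r.σ.xs - r.q.l π r.a r.v := by unfold NmRt.sl; rw [he, hl]; simp
      rw [e]
      have h := nm_ph_close_ex h0 h1 π r.q (!false) r.a r.v r.σ.xs x y (hsh.ex he) (fun _ => hsh.exP he hl) (y.name s π r.q r.a r.v)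
      have hp : 0 ≤ s ^ (r.σ.xs - r.q.l π r.a r.v) := Real.rpow_nonneg h0.le _
      linarith
    | true =>
      have e : r.sl π = 1 := by unfold NmRt.sl; rw [he, hl]; simp
      rw [e]
      have h := nm_ph_close_ex h0 h1 π r.q (!true) r.a r.v (r.q.l π r.a r.v + 1) x y (hsh.ex he) (fun h => by simp at h)
        (y.name s π r.q r.a r.v)
      have e2 : r.q.l π r.a r.v + 1 - r.q.l π r.a r.v = 1 := by ring
      rw [e2, Real.rpow_one] at h
      rw [Real.rpow_one]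
      linarith

/-- on the linear branch `l = b_1(a)` -/
theorem nm_ph_lin_l {π : SfPar} {r : NmRt} {Λ : ℝ} (hr : r.Ok π Λ) (hl : r.σ.lin = true) (v' : ℝ) (hv : r.v ≤ v') :
    r.q.l π r.a v' = π.b1 r.a := by
  unfold NmQ.l
  rcases hr.brl hl with h | ⟨-, h, h2⟩
  · rw [h]
  · rw [h]; exact min_eq_right (by linarith)

theorem nm_ph_aux_two {u w S : ℝ} (hS : 0 < S) (h : |u / S - w / S| ≤ 1) (hw : |w| ≤ S) : |u| ≤ 2 * S := by
  rw [← sub_div] at h
  have h2 := nm_ph_le_of_div hS h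
  rw [abs_le] at h2 hw ⊢
  constructor <;> linarith [h2.1, h2.2, hw.1, hw.2]

/-- closeness `≤ 1` in the frame of `y`: then `x` is seen in this frame -/
theorem nm_ph_in {s : ℝ} (h0 : 0 < s) (h1 : s < 1) {π : SfPar} {q : NmQ} (hg : q.g = 0) {σ : NmSd} {a v : ℝ}
    (hlin : σ.lin = true → q.l π a v = π.b1 a) {x y : NmRaw} (hsh : NmSh s π q σ a x y)
    (hc : nmPhDist (x.phase s π q a v (!σ.lin) (y.name s π q a v)) (y.phase s π q a v (!σ.lin) (y.name s π q a v)) ≤ 1) :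
    NmIn s π q a v (!σ.lin) x (y.name s π q a v) := by
  obtain ⟨oX, oB, oP, oY, oN, oD⟩ := nm_ph_own h0 h1 π q hg a v y
  rw [nm_ph_phase, nm_ph_phase] at hc
  obtain ⟨cX, cB, cP, cY, cN, cD⟩ := nm_ph_dist_ge hc
  have p : ∀ b : ℝ, 0 < s ^ b := fun b => Real.rpow_pos_of_pos h0 b
  refine ⟨hsh.kb, hsh.t, hsh.R, hsh.k, ?_, nm_ph_aux_two (p _) cX oX, nm_ph_aux_two (p _) cB oB, ?_, nm_ph_aux_two (p _) cY oY,
    nm_ph_aux_two (p _) cN oN, nm_ph_aux_two (p _) cD oD⟩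
  · intro h
    have hl : σ.lin = true := by simpa using h
    show nmCell s (q.l π a v) (x.Lraw s q a) = nmCell s (q.l π a v) (y.Lraw s q a)
    rw [hlin hl]
    exact hsh.L hl
  · intro h
    simp only [h, if_true] at cP
    exact nm_ph_aux_two (p _) cP oP

/-! ## bounded lists -/

theorem nm_ph_hu_of_in {s : ℝ} (h0 : 0 < s) (h1 : s < 1) {π : SfPar} {q : NmQ} {a v : ℝ} {n : NmNm} {x y : NmRaw}
    (hx : NmIn s π q a v true x n) (hy : NmIn s π q a v true y n) : NmHu s π q a v v 20 x y n := by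
  have w1 := nm_w_eq q π a v
  have fxX : NmO s (x.fr s π q a v n).X 2 v := hx.X
  have fyX : NmO s (y.fr s π q a v n).X 2 v := hy.X
  have fxB : NmO s (x.fr s π q a v n).B 2 (a + v) := hx.B
  have fyB : NmO s (y.fr s π q a v n).B 2 (a + v) := hy.B
  have fxP : NmO s (x.fr s π q a v n).P 2 (q.l π a v) := hx.P rfl
  have fyP : NmO s (y.fr s π q a v n).P 2 (q.l π a v) := hy.P rfl
  have fxY : NmO s (x.fr s π q a v n).Y 2 (a + 2 * v) := hx.Y
  have fyY : NmO s (y.fr s π q a v n).Y 2 (a + 2 * v) := hy.Y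
  have fxN : NmO s (x.fr s π q a v n).N 2 (q.w π a v) := hx.N
  have fyN : NmO s (y.fr s π q a v n).N 2 (q.w π a v) := hy.N
  have fxD : NmO s (x.fr s π q a v n).D 2 (a + q.w π a v) := hx.D
  have fyD : NmO s (y.fr s π q a v n).D 2 (a + q.w π a v) := hy.D
  refine ⟨(fxX.sub fyX).weak h0 h1 (by norm_num) le_rfl, (fxB.sub fyB).weak h0 h1 (by norm_num) le_rfl,
    (fxP.sub fyP).weak h0 h1 (by norm_num) (by linarith), ?_, ?_, ?_⟩
  · exact ((fxY.sub fyY).sub (((fxX.smul 2).mul h0 (fxB.sub fyB)).weak h0 h1 le_rfl (by linarith : a + 2 * v ≤ v + (a + v)))).weak h0 h1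
      (by norm_num) le_rfl
  · exact ((fxN.sub fyN).sub ((fxP.mul h0 (fxX.sub fyX)).weak h0 h1 le_rfl (by linarith : q.w π a v ≤ q.l π a v + v))).weak h0 h1
      (by norm_num) (by linarith)
  · exact ((fxD.sub fyD).sub ((fxP.mul h0 (fxB.sub fyB)).weak h0 h1 le_rfl (by linarith : a + q.w π a v ≤ q.l π a v + (a + v)))).weak h0 h1
      (by norm_num) (by linarith)

theorem nm_ph_iu_of_in {s : ℝ} (h0 : 0 < s) (h1 : s < 1) {π : SfPar} {q : NmQ} {a v : ℝ} {quad : Bool} {n : NmNm} {x y : NmRaw}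
    (hx : NmIn s π q a v quad x n) (hy : NmIn s π q a v quad y n) : NmIu s π q a v v 4 x y n := by
  have fxX : NmO s (x.fr s π q a v n).X 2 v := hx.X
  have fyX : NmO s (y.fr s π q a v n).X 2 v := hy.X
  have fxB : NmO s (x.fr s π q a v n).B 2 (a + v) := hx.B
  have fyB : NmO s (y.fr s π q a v n).B 2 (a + v) := hy.B
  have fxY : NmO s (x.fr s π q a v n).Y 2 (a + 2 * v) := hx.Y
  have fyY : NmO s (y.fr s π q a v n).Y 2 (a + 2 * v) := hy.Y
  have fxN : NmO s (x.fr s π q a v n).N 2 (q.w π a v) := hx.N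
  have fyN : NmO s (y.fr s π q a v n).N 2 (q.w π a v) := hy.N
  have fxD : NmO s (x.fr s π q a v n).D 2 (a + q.w π a v) := hx.D
  have fyD : NmO s (y.fr s π q a v n).D 2 (a + q.w π a v) := hy.D
  exact ⟨(fxX.sub fyX).weak h0 h1 (by norm_num) le_rfl, (fxB.sub fyB).weak h0 h1 (by norm_num) le_rfl,
    (fxY.sub fyY).weak h0 h1 (by norm_num) (by linarith), (fxN.sub fyN).weak h0 h1 (by norm_num) (by linarith),
    (fxD.sub fyD).weak h0 h1 (by norm_num) (by linarith)⟩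

/-- the absolute constant of the lists of `nm_rep` -/
def nmKr : ℝ := 122 ^ 10

/-- the root names of the raw data seen in one frame -/
theorem nm_ph_list1 {s : ℝ} (h0 : 0 < s) (h1 : s < 1) {π : SfPar} {q : NmQ} (hg : q.g = 0) (a v : ℝ) (quad : Bool) (n : NmNm) :
    ∃ S : Finset NmNm, (S.card : ℝ) ≤ nmKr ∧ ∀ x : NmRaw, NmIn s π q a v quad x n → x.name s π q a v ∈ S := by
  cases quad with
  | true =>
    obtain ⟨S, hS, hmem⟩ := nm_aux_list (fun _ => 6 * 20 + 1) (fun _ => by norm_num)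
      {c | ∃ x : NmRaw, NmIn s π q a v true x n ∧ x.name s π q a v = c} (by
      rintro _ ⟨x, hx, rfl⟩ _ ⟨y, hy, rfl⟩ i hp
      exact nm_ph_wid_q h0 h1 hg (by ring) hx hy (nm_ph_hu_of_in h0 h1 hx hy) i hp)
    refine ⟨S, hS.trans ?_, fun x hx => hmem _ ⟨x, hx, rfl⟩⟩
    simp only [Finset.prod_const, Finset.card_univ, Fintype.card_fin, nmKr]
    norm_num
  | false =>
    have e1 : s ^ (-(v - v)) = 1 := by simp
    obtain ⟨S, hS, hmem⟩ := nm_aux_list (nmKw 4 1) (fun i => by fin_cases i <;> simp [nmKw] <;> norm_num)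
      {c | ∃ x : NmRaw, NmIn s π q a v false x n ∧ x.name s π q a v = c} (by
      rintro _ ⟨x, hx, rfl⟩ _ ⟨y, hy, rfl⟩ i hp
      have := nm_ph_wid_l h0 h1 hg le_rfl rfl hx hy (nm_ph_iu_of_in h0 h1 hx hy) i hp
      rwa [e1] at this)
    refine ⟨S, hS.trans ?_, fun x hx => hmem _ ⟨x, hx, rfl⟩⟩
    simp only [Fin.prod_univ_succ, nmKw, nmKr]
    simp
    norm_num

/-- the frames in which a raw datum with a given root name is seen -/
theorem nm_ph_list2 {s : ℝ} (h0 : 0 < s) (h1 : s < 1) {π : SfPar} {q : NmQ} (hg : q.g = 0) (a v : ℝ) (quad : Bool) (c : NmNm) :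
    ∃ S : Finset NmNm, (S.card : ℝ) ≤ nmKr ∧ ∀ (x : NmRaw) (n : NmNm), NmIn s π q a v quad x n → x.name s π q a v = c → n ∈ S := by
  obtain ⟨S, hS, hmem⟩ := nm_aux_list (fun _ => 30) (fun _ => by norm_num)
    {n | ∃ x : NmRaw, NmIn s π q a v quad x n ∧ x.name s π q a v = c} (by
    rintro n ⟨x, hx, hxc⟩ m ⟨y, hy, hyc⟩ i hp
    exact nm_ph_back h0 h1 hg hx hy (hxc.trans hyc.symm) i hp)
  refine ⟨S, hS.trans ?_, fun x n hx hc => hmem _ ⟨x, hx, hc⟩⟩
  simp only [Finset.prod_const, Finset.card_univ, Fintype.card_fin, nmKr]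
  norm_num

/-! ## on a documented configuration -/

/-- the representative of the value of the side at a charged row -/
theorem nm_ph_rpr (D : SfDoc) (π : SfPar) (r : NmRt) (ω : D.Row 1) (hω : (D.P 1).p ω ≠ 0) :
    ∃ ω' : D.Row 1, (D.P 1).p ω' ≠ 0 ∧ D.side π r.q r.σ r.a ω' = D.side π r.q r.σ r.a ω ∧
      D.cs π r ω = D.nm π r.q r.a r.v ω' ∧
      D.fst π r (D.side π r.q r.σ r.a ω) = (D.raw π r.q.ds ω').phase D.s π r.q r.a r.v (!r.σ.lin) (D.nm π r.q r.a r.v ω') := by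
  have hex : ∃ ω', (D.P 1).p ω' ≠ 0 ∧ D.side π r.q r.σ r.a ω' = D.side π r.q r.σ r.a ω := ⟨ω, hω, rfl⟩
  have e : D.rpr π r.q r.σ r.a (D.side π r.q r.σ r.a ω) = some hex.choose := by
    unfold SfDoc.rpr
    rw [dif_pos hex]
  refine ⟨hex.choose, hex.choose_spec.1, hex.choose_spec.2, ?_, ?_⟩
  · unfold SfDoc.cs SfDoc.cst
    rw [e]
  · unfold SfDoc.fst
    rw [e]

/-- the same value of the side: the raw data share it -/
theorem nm_ph_share (D : SfDoc) (π : SfPar) (q : NmQ) (σ : NmSd) (a : ℝ) {ω ω' : D.Row 1}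
    (h : D.side π q σ a ω = D.side π q σ a ω') : NmSh D.s π q σ a (D.raw π q.ds ω) (D.raw π q.ds ω') := by
  unfold SfDoc.side at h
  simp only [Prod.mk.injEq] at h
  obtain ⟨⟨h1, h2⟩, ⟨h3, h4, h5⟩, h6, h7, h8⟩ := h
  refine ⟨h3, h5, h6, h7, ?_, ?_, ?_, ?_⟩
  · intro hl
    simpa [hl] using h8
  · intro he
    have h2' : D.nm π q σ.A σ.V ω = D.nm π q σ.A σ.V ω' := by simpa [he] using h2
    exact h2'
  · intro he
    simp only [he, if_true, Option.some.injEq] at h1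
    have hray : D.ray 1 ω = D.ray 1 ω' := congrArg Prod.snd h1
    have hk : D.kbar π q.ds ω = D.kbar π q.ds ω' := by
      unfold SfDoc.kbar
      cases hg : q.ds.glob with
      | false => simp
      | true =>
        have h3' : nmCell D.s (π.b2 q.ds.De - q.ds.De) (D.labAt q.ds.De ω).K = nmCell D.s (π.b2 q.ds.De - q.ds.De) (D.labAt q.ds.De ω').K := by
          simpa [SfDoc.raw, hg] using h3
        simp only [if_true]
        exact nm_ph_rep_congr h3'
    simp only [SfDoc.raw, hray, hk]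
  · intro he hl
    simpa [he, hl, SfDoc.Pc] using h4

/-- the own normalised phase has norm `≤ 1` -/
theorem nm_ph_own_nrm {s : ℝ} (h0 : 0 < s) (h1 : s < 1) (π : SfPar) (q : NmQ) (hg : q.g = 0) (a v : ℝ) (quad : Bool) (x : NmRaw) :
    (x.phase s π q a v quad (x.name s π q a v)).nrm ≤ 1 := by
  obtain ⟨oX, oB, oP, oY, oN, oD⟩ := nm_ph_own h0 h1 π q hg a v x
  have p : ∀ b : ℝ, 0 < s ^ b := fun b => Real.rpow_pos_of_pos h0 b
  rw [nm_ph_phase]
  refine nm_ph_nrm_le (nm_ph_div_le (p _) (by rwa [one_mul])) (nm_ph_div_le (p _) (by rwa [one_mul])) ?_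
    (nm_ph_div_le (p _) (by rwa [one_mul])) (nm_ph_div_le (p _) (by rwa [one_mul])) (nm_ph_div_le (p _) (by rwa [one_mul]))
  cases quad with
  | false => simp
  | true => exact nm_ph_div_le (p _) (by rwa [one_mul])

/-- **what the representative gives at a charged row** -/
theorem nm_ph_doc {π : SfPar} (hπ : π.Valid) {r : NmRt} (hr : r.Ok π 2) (D : SfDoc) (h0 : 0 < D.s) (h1 : D.s < 1) {e : ℝ} (he0 : 0 ≤ e)
    (he : 50 * D.s ^ (r.sl π) ≤ D.s ^ e) (ω : D.Row 1) (hω : (D.P 1).p ω ≠ 0) :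
    NmIn D.s π r.q r.a r.v (!r.σ.lin) (D.raw π r.q.ds ω) (D.cs π r ω) ∧
    nmPhDist ((D.raw π r.q.ds ω).phase D.s π r.q r.a r.v (!r.σ.lin) (D.cs π r ω)) (D.fst π r (D.side π r.q r.σ r.a ω)) ≤ D.s ^ e ∧
    (D.fst π r (D.side π r.q r.σ r.a ω)).nrm ≤ 1 := by
  obtain ⟨ω', -, hside, hcs, hfst⟩ := nm_ph_rpr D π r ω hω
  have hsh := nm_ph_share D π r.q r.σ r.a hside.symm
  have hc := (nm_ph_core hπ hr h0 h1 hsh).trans he
  have h1' : D.s ^ e ≤ 1 := Real.rpow_le_one h0.le h1.le he0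
  rw [hcs, hfst]
  exact ⟨nm_ph_in h0 h1 hr.g0 (fun hl => nm_ph_lin_l hr hl r.v le_rfl) hsh (hc.trans h1'), hc,
    nm_ph_own_nrm h0 h1 π r.q hr.g0 r.a r.v _ _⟩

/-- `NmRep` from the scale alone -/
theorem nm_ph_rep_of {π : SfPar} (hπ : π.Valid) {r : NmRt} (hr : r.Ok π 2) (D : SfDoc) (h0 : 0 < D.s) (h1 : D.s < 1) {e : ℝ} (he0 : 0 ≤ e)
    (he : 50 * D.s ^ (r.sl π) ≤ D.s ^ e) : NmRep D π r nmKr e := by
  refine ⟨fun ω₀ => ?_, fun ω₀ => ?_, fun ω hω => (nm_ph_doc hπ hr D h0 h1 he0 he ω hω).2.1⟩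
  · obtain ⟨S, hS, hmem⟩ := nm_ph_list1 h0 h1 hr.g0 r.a r.v (!r.σ.lin) (D.cs π r ω₀)
    refine ⟨S, hS, fun ω hω _ hcs => hmem _ ?_⟩
    rw [← hcs]
    exact (nm_ph_doc hπ hr D h0 h1 he0 he ω hω).1
  · obtain ⟨S, hS, hmem⟩ := nm_ph_list2 h0 h1 hr.g0 r.a r.v (!r.σ.lin) (D.nm π r.q r.a r.v ω₀)
    exact ⟨S, hS, fun ω hω _ hnm => hmem _ _ (nm_ph_doc hπ hr D h0 h1 he0 he ω hω).1 hnm⟩

/-- the threshold of the scale for the slack `e` -/
theorem nm_ph_thr {s e sl : ℝ} (h0 : 0 < s) (h1 : s < 1) (he0 : 0 < e) (he : e ≤ sl / 2) (hs : s ≤ (1 / 50) ^ (2 / (2 * e))) :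
    50 * s ^ sl ≤ s ^ e := by
  have a1 := nm_ph_absorb (C := 50) (e := 2 * e) (by norm_num) (by linarith) h0 hs
  have a2 : s ^ sl ≤ s ^ (2 * e) := nm_pow_anti h0 h1 (by linarith)
  have e2 : 2 * e / 2 = e := by ring
  rw [e2] at a1
  linarith

/-- **EXIT, uniform form**: the threshold `t0` depends only on the slack `e` -/
theorem nm_pha_rep_unif (π : SfPar) (hπ : π.Valid) (C0 τ κ0 e : ℝ) (he0 : 0 < e) : ∃ t0 : ℝ, 0 < t0 ∧ ∀ r : NmRt, r.Ok π 2 → e ≤ r.sl π / 2 →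
    ∀ D : SfDoc, D.Fine π C0 τ κ0 t0 → NmRep D π r nmKr e := by
  refine ⟨(1 / 50) ^ (2 / (2 * e)), by positivity, fun r hr he D hD => ?_⟩
  obtain ⟨h0, h1⟩ := hD.ok.core.hs
  exact nm_ph_rep_of hπ hr D h0 h1 he0.le (nm_ph_thr h0 h1 he0 he hD.sm)

/-- **EXIT, explicit slack** -/
theorem nm_pha_rep_sl (π : SfPar) (hπ : π.Valid) (C0 τ κ0 : ℝ) (r : NmRt) (hr : r.Ok π 2) (e : ℝ) (he0 : 0 < e) (he : e ≤ r.sl π / 2) :
    NmA π C0 τ κ0 fun _ D => NmRep D π r nmKr e := by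
  intro acc _
  obtain ⟨t0, ht0, h⟩ := nm_pha_rep_unif π hπ C0 τ κ0 e he0
  exact ⟨t0, ht0, fun D hD _ => h r hr he D hD⟩

/-- **EXIT = `nm_rep` of `Nm/Contract.lean`, verbatim** -/
theorem nm_pha_rep (π : SfPar) (hπ : π.Valid) (C0 τ κ0 : ℝ) : ∃ Λ K0 : ℝ, ∀ r : NmRt, r.Ok π Λ → ∃ e : ℝ, 0 < e ∧
    NmA π C0 τ κ0 fun _ D => NmRep D π r K0 e := by
  refine ⟨2, nmKr, fun r hr => ⟨r.sl π / 2, by linarith [nm_ph_sl_pos hr], ?_⟩⟩
  exact nm_pha_rep_sl π hπ C0 τ κ0 r hr _ (by linarith [nm_ph_sl_pos hr]) le_rfl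

/-- **EXIT, uniform on a closed rectangle of roots** (asked by helper190 for `nm_gr_in`) -/
theorem nm_pha_rep_patch (π : SfPar) (hπ : π.Valid) (C0 τ κ0 : ℝ) : ∃ Λ K0 : ℝ, ∀ (r0 : NmRt) (a0 a1 v0 v1 : ℝ),
    (∀ a v : ℝ, a0 ≤ a → a ≤ a1 → v0 ≤ v → v ≤ v1 → NmRt.Ok { r0 with a := a, v := v } π Λ) →
    ∃ e : ℝ, 0 < e ∧ ∀ a v : ℝ, a0 ≤ a → a ≤ a1 → v0 ≤ v → v ≤ v1 →
      NmA π C0 τ κ0 fun _ D => NmRep D π { r0 with a := a, v := v } K0 e := by
  refine ⟨2, nmKr, fun r0 a0 a1 v0 v1 hok => ?_⟩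
  by_cases hne : a0 ≤ a1 ∧ v0 ≤ v1
  · obtain ⟨haa, hvv⟩ := hne
    have p0 := nm_ph_sl_pos (hok a0 v0 le_rfl haa le_rfl hvv)
    have p1 := nm_ph_sl_pos (hok a1 v1 haa le_rfl hvv le_rfl)
    refine ⟨min (NmRt.sl { r0 with a := a0, v := v0 } π) (NmRt.sl { r0 with a := a1, v := v1 } π) / 2,
      by have := lt_min p0 p1; linarith, fun a v h1 h2 h3 h4 => ?_⟩
    have hr := hok a v h1 h2 h3 h4
    refine nm_pha_rep_sl π hπ C0 τ κ0 _ hr _ (by have := lt_min p0 p1; linarith) ?_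
    have key : min (NmRt.sl { r0 with a := a0, v := v0 } π) (NmRt.sl { r0 with a := a1, v := v1 } π)
        ≤ NmRt.sl { r0 with a := a, v := v } π := by
      cases he : r0.σ.exact with
      | false =>
        refine (min_le_left _ _).trans ?_
        simp only [NmRt.sl, he, Bool.false_eq_true, if_false]
        linarith
      | true =>
        refine (min_le_right _ _).trans ?_
        cases hl : r0.σ.lin with
        | true => simp only [NmRt.sl, he, hl, if_true]; exact le_rfl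
        | false =>
          simp only [NmRt.sl, he, hl, if_true, Bool.false_eq_true, if_false]
          have hG : (⟨1 / 2, π, r0.q, a, v, a1, v1⟩ : NmG).Ok :=
            ⟨by norm_num, by norm_num, nm_fam_ok π hπ r0.q hr.q, h2, h4⟩
          have := nm_l_mono hG
          simp only at this
          linarith
    linarith
  · refine ⟨1, one_pos, fun a v h1 h2 h3 h4 => absurd ⟨h1.trans h2, h3.trans h4⟩ hne⟩

theorem nm_ph_rep_eqns_cite : True := by
  have := @NmRt.sl.eq_1; have := @nmKr.eq_1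
  trivial

end

end Claimed.Agent.R256
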