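import Claimed.Agent.R256.Nm.Pha.Kit

/-!
# Row 256, unit NM, sub-block NM-PHA, file 6: PERTURBATION OF THE DISPLAY CLAUSES `Tan.DspAt`      (helper143; prefix `nm_ph`)

PAPER-FREE.   `nm_ph_dsp_mono` : `DspAt` is monotone in the loss factor.      `nm_ph_pert` : if `DspAt` holds at `(f, μ)` with the loss `A ≥ 1`, the phases are bounded by `2`, the marks by `3`,
and `(g, ν)` is `ε`-close to `(f, μ)`, `ε ≤ δ^((1+c) l)`, then `DspAt` holds at `(g, ν)` with the loss `100 A^3`.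
`NmB u K` = `|u| ≤ K`, with the obvious calculus.
-/

set_option autoImplicit false

namespace Claimed.Agent.R256

open Claimed.Agent.R255
open Classical

noncomputable section

/-- `|u| ≤ K` -/
def NmB (u K : ℝ) : Prop := |u| ≤ K

namespace NmB

variable {u w K K' : ℝ}

theorem add (hu : NmB u K) (hw : NmB w K') : NmB (u + w) (K + K') := (abs_add_le _ _).trans (add_le_add hu hw)

theorem neg (hu : NmB u K) : NmB (-u) K := by unfold NmB at hu ⊢; rwa [abs_neg]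

theorem sub (hu : NmB u K) (hw : NmB w K') : NmB (u - w) (K + K') := by
  rw [sub_eq_add_neg]; exact hu.add hw.neg

theorem mul (hu : NmB u K) (hw : NmB w K') : NmB (u * w) (K * K') := nm_gd_mul hu hw

theorem mono (hu : NmB u K) (h : K ≤ K') : NmB u K' := le_trans hu h

theorem congr (hu : NmB u K) (e : w = u) : NmB w K := e ▸ hu

end NmB

/-- the final arithmetic: `A E + ε (a0 + a1 A + a2 A² + a3 A³) ≤ 100 A³ E` -/
theorem nm_ph_fin3 {A E ε a0 a1 a2 a3 : ℝ} (hA : 1 ≤ A) (h0 : 0 ≤ ε) (hε : ε ≤ E) (b0 : 0 ≤ a0) (b1 : 0 ≤ a1) (b2 : 0 ≤ a2) (b3 : 0 ≤ a3)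
    (hs : 1 + a0 + a1 + a2 + a3 ≤ 100) : A * E + ε * (a0 + a1 * A + a2 * A ^ 2 + a3 * A ^ 3) ≤ 100 * A ^ 3 * E := by
  have hA0 : 0 ≤ A := by linarith
  have h2 : A ≤ A ^ 2 := by nlinarith
  have h3 : A ^ 2 ≤ A ^ 3 := by nlinarith [mul_nonneg hA0 hA0]
  have hE : 0 ≤ E := h0.trans hε
  have hp : 0 ≤ a0 + a1 * A + a2 * A ^ 2 + a3 * A ^ 3 := by positivity
  have hq : A + (a0 + a1 * A + a2 * A ^ 2 + a3 * A ^ 3) ≤ 100 * A ^ 3 := by
    have c0 : a0 ≤ a0 * A ^ 3 := by nlinarith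
    have c1 : a1 * A ≤ a1 * A ^ 3 := by nlinarith
    have c2 : a2 * A ^ 2 ≤ a2 * A ^ 3 := by nlinarith
    have c3 : (1 + a0 + a1 + a2 + a3) * A ^ 3 ≤ 100 * A ^ 3 := by
      apply mul_le_mul_of_nonneg_right hs; positivity
    nlinarith
  calc A * E + ε * (a0 + a1 * A + a2 * A ^ 2 + a3 * A ^ 3) ≤ A * E + E * (a0 + a1 * A + a2 * A ^ 2 + a3 * A ^ 3) := by
        have := mul_le_mul_of_nonneg_right hε hp
        linarith
    _ = (A + (a0 + a1 * A + a2 * A ^ 2 + a3 * A ^ 3)) * E := by ring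
    _ ≤ 100 * A ^ 3 * E := mul_le_mul_of_nonneg_right hq hE

/-- `DspAt` is monotone in the loss factor -/
theorem nm_ph_dsp_mono (T : Tan) (h0 : 0 < T.δ) {par : ItPar} {K A A' l : ℝ} (hA : A ≤ A') {f : ItPh} {μ : ItMk} {d : ItDsp}
    (h : T.DspAt par K A l f μ d) : T.DspAt par K A' l f μ d := by
  have p : ∀ b : ℝ, A * T.δ ^ b ≤ A' * T.δ ^ b := fun b => mul_le_mul_of_nonneg_right hA (Real.rpow_nonneg h0.le _)
  exact ⟨⟨h.bd.1.trans hA, h.bd.2.1.trans hA, h.bd.2.2.1.trans hA, h.bd.2.2.2.trans hA⟩, h.time.trans (p _), h.baseW.trans (p _),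
    h.baseV.trans (p _), h.vel.trans (p _), h.pos.trans (p _), fun q => (h.derq q).trans (p _),
    fun q c => ⟨(h.cutc q c).1, (h.cutc q c).2.trans (p _)⟩, fun q c => (h.cutn q c).trans (p _),
    fun q => ⟨(h.derl q).1.trans (p _), (h.derl q).2.1.trans (p _), (h.derl q).2.2.trans (p _)⟩⟩

/-- the data of a perturbation -/
structure NmPt (A ε : ℝ) (f g : ItPh) (d : ItDsp) : Prop where
  fX : NmB f.X 2
  gX : NmB g.X 2
  fB : NmB f.B 2
  gB : NmB g.B 2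
  dX : NmB (f.X - g.X) ε
  dB : NmB (f.B - g.B) ε
  dP : NmB (f.P - g.P) ε
  dY : NmB (f.Y - g.Y) ε
  dN : NmB (f.N - g.N) ε
  dD : NmB (f.D - g.D) ε
  th : NmB d.th A
  L : NmB d.L A
  R : NmB d.R A
  b : NmB d.b A

namespace NmPt

variable {A ε : ℝ} {f g : ItPh} {d : ItDsp} (P : NmPt A ε f g d)
include P

theorem dX2 : NmB (f.X ^ 2 - g.X ^ 2) (ε * 4) := ((P.dX.mul (P.fX.add P.gX)).congr (by ring)).mono (by norm_num)

theorem dW : NmB ((f.B + d.th * f.X) - (g.B + d.th * g.X)) (ε * (1 + A)) :=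
  ((P.dB.add (P.th.mul P.dX)).congr (by ring)).mono (le_of_eq (by ring))

theorem dV : NmB ((f.Y + d.th * f.X ^ 2) - (g.Y + d.th * g.X ^ 2)) (ε * (1 + 4 * A)) :=
  ((P.dY.add (P.th.mul P.dX2)).congr (by ring)).mono (le_of_eq (by ring))

theorem fW : NmB (f.B + d.th * f.X) (2 + 2 * A) := (P.fB.add (P.th.mul P.fX)).mono (le_of_eq (by ring))

theorem gW : NmB (g.B + d.th * g.X) (2 + 2 * A) := (P.gB.add (P.th.mul P.gX)).mono (le_of_eq (by ring))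

theorem dXW : NmB (f.X * (f.B + d.th * f.X) - g.X * (g.B + d.th * g.X)) (ε * (4 + 4 * A)) :=
  (((P.fX.mul P.dW).add (P.dX.mul P.gW)).congr (by ring)).mono (le_of_eq (by ring))

theorem dW2 : NmB ((f.B + d.th * f.X) ^ 2 - (g.B + d.th * g.X) ^ 2) (ε * (4 + 8 * A + 4 * A ^ 2)) :=
  ((P.dW.mul (P.fW.add P.gW)).congr (by ring)).mono (le_of_eq (by ring))

theorem vel : NmB ((f.N - d.L * f.X - d.R * f.X ^ 2 - d.b * ((f.Y + d.th * f.X ^ 2) - 2 * f.X * (f.B + d.th * f.X)))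
    - (g.N - d.L * g.X - d.R * g.X ^ 2 - d.b * ((g.Y + d.th * g.X ^ 2) - 2 * g.X * (g.B + d.th * g.X)))) (ε * (1 + 14 * A + 12 * A ^ 2 + 0 * A ^ 3)) :=
  ((((P.dN.sub (P.L.mul P.dX)).sub (P.R.mul P.dX2)).sub (P.b.mul (P.dV.sub (P.dXW.add P.dXW)))).congr (by ring)).mono (le_of_eq (by ring))

theorem pos : NmB ((f.D + d.th * f.N - d.L * (f.B + d.th * f.X) - d.R * (f.Y + d.th * f.X ^ 2) + d.b * (f.B + d.th * f.X) ^ 2)
    - (g.D + d.th * g.N - d.L * (g.B + d.th * g.X) - d.R * (g.Y + d.th * g.X ^ 2) + d.b * (g.B + d.th * g.X) ^ 2))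
    (ε * (1 + 7 * A + 13 * A ^ 2 + 4 * A ^ 3)) :=
  (((((P.dD.add (P.th.mul P.dN)).sub (P.L.mul P.dW)).sub (P.R.mul P.dV)).add (P.b.mul P.dW2)).congr (by ring)).mono (le_of_eq (by ring))

theorem der : NmB ((f.P - d.L - 2 * d.R * f.X + 2 * d.b * (f.B + d.th * f.X)) - (g.P - d.L - 2 * d.R * g.X + 2 * d.b * (g.B + d.th * g.X)))
    (ε * (1 + 4 * A + 2 * A ^ 2 + 0 * A ^ 3)) :=
  (((P.dP.sub ((P.R.mul P.dX).add (P.R.mul P.dX))).add ((P.b.mul P.dW).add (P.b.mul P.dW))).congr (by ring)).mono (le_of_eq (by ring))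

end NmPt

/-- one clause: an old bound `A E`, a perturbation `ε p(A)` -/
theorem nm_ph_clause {A E ε a0 a1 a2 a3 u w : ℝ} (hA : 1 ≤ A) (h0 : 0 ≤ ε) (hε : ε ≤ E) (b0 : 0 ≤ a0) (b1 : 0 ≤ a1) (b2 : 0 ≤ a2) (b3 : 0 ≤ a3)
    (hs : 1 + a0 + a1 + a2 + a3 ≤ 100) (hu : |u| ≤ A * E) (hw : NmB (u - w) (ε * (a0 + a1 * A + a2 * A ^ 2 + a3 * A ^ 3))) :
    |w| ≤ 100 * A ^ 3 * E := by
  have h : NmB w (A * E + ε * (a0 + a1 * A + a2 * A ^ 2 + a3 * A ^ 3)) := ((show NmB u _ from hu).sub hw).congr (by ring)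
  exact h.trans (nm_ph_fin3 hA h0 hε b0 b1 b2 b3 hs)

/-- **perturbation of the display clauses** -/
theorem nm_ph_pert (T : Tan) (h0 : 0 < T.δ) (h1 : T.δ < 1) {par : ItPar} (hc : 0 < par.c) {K A l ε : ℝ} (hA : 1 ≤ A) (hl : 0 < l)
    {f g : ItPh} {μ ν : ItMk} {d : ItDsp} (h : T.DspAt par K A l f μ d) (hf : f.nrm ≤ 2) (hg : g.nrm ≤ 2)
    (hμ : |μ.th| ≤ 3 ∧ |μ.r| ≤ 3 ∧ |μ.k| ≤ 3) (hfg : nmPhDist f g ≤ ε)
    (hμν : |ν.th - μ.th| ≤ ε ∧ |ν.r - μ.r| ≤ ε ∧ |ν.k - μ.k| ≤ ε) (hε1 : ε ≤ 1) (hε : ε ≤ T.δ ^ ((1 + par.c) * l)) :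
    T.DspAt par K (100 * A ^ 3) l g ν d := by
  have hε0 : 0 ≤ ε := (abs_nonneg _).trans hμν.1
  have hA0 : 0 ≤ A := by linarith
  have hAA : A ≤ 100 * A ^ 3 := by
    have h2 : A ≤ A ^ 2 := by nlinarith
    have h3 : A ^ 2 ≤ A ^ 3 := by nlinarith [mul_nonneg hA0 hA0]
    nlinarith
  have pw : ∀ b : ℝ, b ≤ (1 + par.c) * l → ε ≤ T.δ ^ b := fun b hb => hε.trans (nm_pow_anti h0 h1 hb)
  have hcl : 0 < par.c * l := mul_pos hc hl
  obtain ⟨fX, fB, -, -, -, -⟩ := nm_ph_nrm_ge hf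
  obtain ⟨gX, gB, -, -, -, -⟩ := nm_ph_nrm_ge hg
  obtain ⟨dX, dB, dP, dY, dN, dD⟩ := nm_ph_dist_ge hfg
  obtain ⟨bth, bL, bR, bb⟩ := h.bd
  have P : NmPt A ε f g d := ⟨fX, gX, fB, gB, dX, dB, dP, dY, dN, dD, bth, bL, bR, bb⟩
  have q1 : l ≤ (1 + par.c) * l := by nlinarith
  have q2 : par.c * l ≤ (1 + par.c) * l := by nlinarith
  have m2 : NmB (ν.th - μ.th) ε := hμν.1
  have m3 : NmB (ν.r - μ.r) ε := hμν.2.1
  have m4 : NmB (ν.k - μ.k) ε := hμν.2.2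
  refine ⟨⟨bth.trans hAA, bL.trans hAA, bR.trans hAA, bb.trans hAA⟩, ?_, ?_, ?_, ?_, ?_, ?_, ?_, ?_, ?_⟩
  · exact nm_ph_clause (a0 := 1) (a1 := 0) (a2 := 0) (a3 := 0) hA hε0 (pw l q1) (by norm_num) le_rfl le_rfl le_rfl (by norm_num) h.time
      ((m2.congr (by ring)).mono (le_of_eq (by ring)))
  · exact nm_ph_clause (a0 := 1) (a1 := 1) (a2 := 0) (a3 := 0) hA hε0 (pw l q1) (by norm_num) (by norm_num) le_rfl le_rfl (by norm_num) h.baseW
      ((P.dW.neg.congr (by ring)).mono (le_of_eq (by ring)))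
  · exact nm_ph_clause (a0 := 1) (a1 := 4) (a2 := 0) (a3 := 0) hA hε0 (pw l q1) (by norm_num) (by norm_num) le_rfl le_rfl (by norm_num) h.baseV
      ((P.dV.neg.congr (by ring)).mono (le_of_eq (by ring)))
  · exact nm_ph_clause (a0 := 1) (a1 := 14) (a2 := 12) (a3 := 0) hA hε0 (pw _ q2) (by norm_num) (by norm_num) (by norm_num) le_rfl (by norm_num) h.vel
      (P.vel.neg.congr (by ring))
  · exact nm_ph_clause (a0 := 1) (a1 := 7) (a2 := 13) (a3 := 4) hA hε0 (pw _ le_rfl) (by norm_num) (by norm_num) (by norm_num) (by norm_num)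
      (by norm_num) h.pos (P.pos.neg.congr (by ring))
  · intro hq
    exact nm_ph_clause (a0 := 1) (a1 := 4) (a2 := 2) (a3 := 0) hA hε0 (pw _ q2) (by norm_num) (by norm_num) (by norm_num) le_rfl (by norm_num)
      (h.derq hq) P.der
  · intro hq hc1
    exact ⟨(h.cutc hq hc1).1, nm_ph_clause (a0 := 1) (a1 := 0) (a2 := 0) (a3 := 0) hA hε0 (pw _ q2) (by norm_num) le_rfl le_rfl le_rfl (by norm_num)
      (h.cutc hq hc1).2 ((m3.congr (by ring)).mono (le_of_eq (by ring)))⟩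
  · intro hq hc1
    have mth : NmB μ.th 3 := hμ.1
    have mk : NmB μ.k 3 := hμ.2.2
    have nk : NmB ν.k 4 := ((m4.add mk).congr (by ring)).mono (by linarith)
    have u1 : |d.b - ν.k| ≤ |d.b - μ.k| + ε :=
      ((show NmB (d.b - μ.k) _ from le_rfl).sub m4).congr (by ring)
    have u2 : |d.R - d.th * d.b - (ν.r - ν.th * ν.k)| ≤ |d.R - d.th * d.b - (μ.r - μ.th * μ.k)| + (ε + (3 * ε + ε * 4)) :=
      ((show NmB (d.R - d.th * d.b - (μ.r - μ.th * μ.k)) _ from le_rfl).sub (m3.sub ((mth.mul m4).add (m2.mul nk)))).congr (by ring)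
    have h5 := h.cutn hq hc1
    have := nm_ph_fin3 (a0 := 9) (a1 := 0) (a2 := 0) (a3 := 0) hA hε0 (pw ((par.c - 1) * l) (by nlinarith)) (by norm_num) le_rfl le_rfl le_rfl
      (by norm_num)
    linarith
  · intro hq
    obtain ⟨e1, e2, e3⟩ := h.derl hq
    have p : ∀ b : ℝ, A * T.δ ^ b ≤ 100 * A ^ 3 * T.δ ^ b := fun b => mul_le_mul_of_nonneg_right hAA (Real.rpow_nonneg h0.le _)
    exact ⟨nm_ph_clause (a0 := 1) (a1 := 0) (a2 := 0) (a3 := 0) hA hε0 (pw _ q2) (by norm_num) le_rfl le_rfl le_rfl (by norm_num) e1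
      ((m3.neg.congr (by ring)).mono (le_of_eq (by ring))), e2.trans (p _), e3.trans (p _)⟩

theorem nm_ph_pert_eqns_cite : True := by
  have := @NmB.eq_1
  trivial

end

end Claimed.Agent.R256
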