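import Claimed.Agent.R256.Nm.Grd.Dsp
import Claimed.Agent.R256.Nm.Pha.List
import Claimed.Agent.R256.Nm.Pha.Pert

/-!
# Row 256, unit NM, sub-block NM-PHA, file 8: `Tan.DspAt` AT THE ACTUAL PHASE AND THE EXACT MARKS      (helper143; prefix `nm_ph`)

PAPER-FREE.   `x` seen in the frame `n` at `(a,v)` (`NmIn`), child name `c = x.name (a', v)`, `a' = a + lam h`, `δ = s^h`, display `nmDsp` of `Nm/Grd/Dsp.lean` (helper190: `nm_gd_base`, `nm_gd_der`, `nm_gd_vel`, `nm_gd_pos`, `nm_gd_th`, `nm_gd_quad`, `nm_gd_lin`, `nm_gd_mark_bd`).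
* `nm_ph_cutn` : slope cut: `𝓡 - θ' 𝔟 - (r - θ 𝔨) = (τ (K - k') - (Rraw' - R')) / s^b`, NO term `s^(a'-a)` (needed for `c > 2`).
* `nm_ph_act` : all clauses of `DspAt` with the loss `70`.
-/

set_option autoImplicit false

namespace Claimed.Agent.R256

open Claimed.Agent.R255
open Classical

noncomputable section

theorem NmIn.Fr {s : ℝ} {π : SfPar} {q : NmQ} {a v : ℝ} {quad : Bool} {x : NmRaw} {n : NmNm} (h : NmIn s π q a v quad x n) : x.Fr s q a n :=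
  ⟨h.t.symm, h.R.symm, h.k.symm⟩

/-- slope cut: the combination of (int:output-coefficients) -/
theorem nm_ph_cutn {s : ℝ} (h0 : 0 < s) (h1 : s < 1) {π : SfPar} {q : NmQ} {a v a' : ℝ} (ha : a ≤ a') (x : NmRaw) (n : NmNm)
    (hn : x.Fr s q a n) (hl : q.l π a v = q.ds.b a + v) (hc : q.ds.cut = NmCut.slope) :
    |(nmDsp s π q a v a' (x.name s π q a' v) n).R
        - (nmDsp s π q a v a' (x.name s π q a' v) n).th * (nmDsp s π q a v a' (x.name s π q a' v) n).b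
        - ((x.mark s π q a true).r - (x.mark s π q a true).th * (x.mark s π q a true).k)| ≤ 2 * s ^ ((q.ds.bs - 1) * (a' - a)) := by
  obtain ⟨f1, f2, f3⟩ := nm_gd_fr hn
  obtain ⟨dth, -, dR, db⟩ := nm_gd_der_ds π q a v a' x n
  have hb : s ^ (q.ds.b a) ≠ 0 := (Real.rpow_pos_of_pos h0 _).ne'
  have hsa : s ^ a ≠ 0 := (Real.rpow_pos_of_pos h0 _).ne'
  have e0 : s ^ (v - q.l π a v) = (s ^ (q.ds.b a))⁻¹ := by
    rw [hl, ← Real.rpow_neg h0.le]; congr 1; ring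
  have e1 : s ^ (a + v - q.l π a v) = s ^ a / s ^ (q.ds.b a) := by
    rw [hl, ← Real.rpow_sub h0]; congr 1; ring
  have e2 : s ^ (a - q.ds.b a) = s ^ a / s ^ (q.ds.b a) := Real.rpow_sub h0 _ _
  have eK : x.kraw q = x.K := nm_gd_kraw_slope x hc
  have eR : x.Rraw s q a' = x.be + (x.ta s a' - x.Te) * x.K := nm_gd_Rraw_slope x s a' hc
  have key : (nmDsp s π q a v a' (x.name s π q a' v) n).R
        - (nmDsp s π q a v a' (x.name s π q a' v) n).th * (nmDsp s π q a v a' (x.name s π q a' v) n).b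
        - ((x.mark s π q a true).r - (x.mark s π q a true).th * (x.mark s π q a true).k)
      = ((x.ta s a' - x.ta s a) * (x.kraw q - x.ka s q a') - (x.Rraw s q a' - x.Ra s q a')) / s ^ (q.ds.b a) := by
    rw [dth, dR, db, f1, f2, f3, e0, e1, eR, eK]
    show _ - ((x.be - (x.Ra s q a + (x.Te - x.ta s a) * x.ka s q a)) / s ^ (q.ds.b a)
      - (x.Te - x.ta s a) / s ^ a * ((x.kraw q - x.ka s q a) * s ^ (a - q.ds.b a))) = _
    rw [e2, eK]
    field_simp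
    ring
  rw [key]
  have hG : (⟨s, π, q, a, v, a', v⟩ : NmG).s = s := rfl
  have oτ : NmO s (x.ta s a' - x.ta s a) 1 a := by
    apply NmO.of_le
    have g1 := nm_gc_rep_mono h0 h1 ha x.T
    have g2 := nm_rep_le s a' x.T
    have g3 := nm_rep_lt s a x.T
    have g4 := nm_wd_le h0 h1 a
    unfold NmRaw.ta
    rw [abs_le]; constructor <;> linarith [Real.rpow_pos_of_pos h0 a]
  have ok : NmO s (x.kraw q - x.ka s q a') 1 (q.ds.b a' - a') := NmO.of_le (nm_rep_abs h0 h1 _ _)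
  have oR : NmO s (x.Rraw s q a' - x.Ra s q a') 1 (q.ds.b a') := NmO.of_le (nm_rep_abs h0 h1 _ _)
  have eb : q.ds.b a' = q.ds.b a + q.ds.bs * (a' - a) := by unfold NmDs.b; ring
  have u := ((oτ.mul h0 ok).weak h0 h1 le_rfl (by rw [eb]; linarith : q.ds.b a + (q.ds.bs - 1) * (a' - a) ≤ a + (q.ds.b a' - a'))).sub
    (oR.weak h0 h1 le_rfl (by rw [eb]; nlinarith : q.ds.b a + (q.ds.bs - 1) * (a' - a) ≤ q.ds.b a'))
  exact u.fin h0 h1 le_rfl (by norm_num)

/-- the normalised phase of a raw datum seen in a frame is bounded by `2` -/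
theorem NmIn.bd {s : ℝ} (h0 : 0 < s) {π : SfPar} {q : NmQ} {a v : ℝ} {quad : Bool} {x : NmRaw} {n : NmNm} (h : NmIn s π q a v quad x n) :
    (x.phase s π q a v quad n).nrm ≤ 2 := by
  have p : ∀ b : ℝ, 0 < s ^ b := fun b => Real.rpow_pos_of_pos h0 b
  rw [nm_ph_phase]
  refine nm_ph_nrm_le (nm_ph_div_le (p _) h.X) (nm_ph_div_le (p _) h.B) ?_ (nm_ph_div_le (p _) h.Y) (nm_ph_div_le (p _) h.N)
    (nm_ph_div_le (p _) h.D)
  cases quad with
  | false => simp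
  | true => exact nm_ph_div_le (p _) (h.P rfl)

/-- the hypotheses on a child `(a', v)`, `a' = a + lam h`, of the root `(a, v)`; `c` = the rate of the branch, `δ = s^h` -/
structure NmCd (s h lam c : ℝ) (π : SfPar) (q : NmQ) (a v : ℝ) : Prop where
  s0 : 0 < s
  s1 : s < 1
  hq : q.Ok π
  hg : q.g = 0
  hh : 0 < h
  hlam : 0 < lam
  hc : 0 < c
  hl : q.l π (a + lam * h) v = q.l π a v + c * (lam * h)

namespace NmCd

variable {s h lam c : ℝ} {π : SfPar} {q : NmQ} {a v : ℝ} (H : NmCd s h lam c π q a v)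
include H

theorem ha : a ≤ a + lam * h := by have := mul_pos H.hlam H.hh; linarith

/-- powers of `s` as powers of `δ = s^h` -/
theorem pw (e : ℝ) : s ^ (e * (lam * h)) = (s ^ h) ^ (e * lam) := by
  rw [← Real.rpow_mul H.s0.le]; congr 1; ring

theorem δ0 : 0 < s ^ h := Real.rpow_pos_of_pos H.s0 _

theorem δ1 : s ^ h < 1 := Real.rpow_lt_one H.s0.le H.s1 H.hh

theorem pw1 : s ^ (a + lam * h - a) = (s ^ h) ^ lam := by
  have := H.pw 1
  rw [one_mul, one_mul] at this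
  rw [← this]; congr 1; ring

theorem pwl : s ^ (q.l π (a + lam * h) v - q.l π a v) = (s ^ h) ^ (c * lam) := by
  rw [← H.pw c, H.hl]; congr 1; ring

theorem pww : s ^ (q.w π (a + lam * h) v - q.w π a v) = (s ^ h) ^ (c * lam) := by
  rw [← H.pwl, nm_w_eq, nm_w_eq]; congr 1; ring

theorem pwp : s ^ ((a + lam * h - a) + (q.w π (a + lam * h) v - q.w π a v)) = (s ^ h) ^ ((1 + c) * lam) := by
  rw [← H.pw (1 + c), nm_w_eq, nm_w_eq, H.hl]; congr 1; ring

end NmCd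

/-- the clauses of `DspAt` which do not depend on the branch -/
theorem nm_ph_act_base {s h lam c : ℝ} {π : SfPar} {q : NmQ} {a v : ℝ} (H : NmCd s h lam c π q a v) {quad : Bool} {x : NmRaw} {n : NmNm}
    (hin : NmIn s π q a v quad x n) (hT : |x.Te - x.T| ≤ s ^ (a + lam * h)) (hcut : quad = true → q.ds.cut ≠ NmCut.none)
    (f : ItPh) (hf : f = x.phase s π q a v quad n) (μ : ItMk) (hμ : μ = x.mark s π q a quad)
    (d : ItDsp) (hd : d = nmDsp s π q a v (a + lam * h) (x.name s π q (a + lam * h) v) n) :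
    (|μ.th| ≤ 2 ∧ |μ.r| ≤ 3 ∧ |μ.k| ≤ 1) ∧ |d.th| ≤ 4 ∧ |d.th - μ.th| ≤ 2 * (s ^ h) ^ lam ∧
    |d.W - (f.B + d.th * f.X)| ≤ 1 * (s ^ h) ^ lam ∧ |d.V - (f.Y + d.th * f.X ^ 2)| ≤ 7 * (s ^ h) ^ lam ∧
    |d.vel - (f.N - d.L * f.X - d.R * f.X ^ 2 - d.b * ((f.Y + d.th * f.X ^ 2) - 2 * f.X * (f.B + d.th * f.X)))| ≤ 1 * (s ^ h) ^ (c * lam) ∧
    |d.pos - (f.D + d.th * f.N - d.L * (f.B + d.th * f.X) - d.R * (f.Y + d.th * f.X ^ 2) + d.b * (f.B + d.th * f.X) ^ 2)|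
      ≤ 1 * (s ^ h) ^ ((1 + c) * lam) := by
  have h0 := H.s0
  have h1 := H.s1
  have hTa : |x.Te - x.T| ≤ s ^ a := hT.trans (nm_pow_anti h0 h1 H.ha)
  have mb := nm_gd_mark_bd h0 h1 π q a x quad hcut hTa
  have th := nm_gd_th h0 h1 H.hq H.ha (v := v) x n hin.Fr quad hT
  have bs := nm_gd_base h0 h1 π q a v (a + lam * h) x n
  have vl := nm_gd_vel h0 h1 π q a v (a + lam * h) x n H.hg
  have ps := nm_gd_pos h0 h1 π q a v (a + lam * h) x n H.hg
  rw [H.pw1] at th bs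
  rw [H.pww] at vl
  rw [H.pwp] at ps
  have hδ : (s ^ h) ^ lam ≤ 1 := Real.rpow_le_one H.δ0.le H.δ1.le H.hlam.le
  have hδ0 : 0 < (s ^ h) ^ lam := Real.rpow_pos_of_pos H.δ0 _
  have fX : |(x.phase s π q a v true n).X| ≤ 2 := (nm_ph_nrm_ge (hin.bd h0)).1
  subst hf hμ hd
  refine ⟨mb, ?_, th, ?_, ?_, ?_, ?_⟩
  · have a1 := abs_le.1 th
    have a2 := abs_le.1 mb.1
    rw [abs_le]; constructor <;> linarith [a1.1, a1.2, a2.1, a2.2]
  · rw [one_mul]; exact bs.1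
  · refine bs.2.trans ?_
    nlinarith
  · rw [one_mul]; exact vl
  · rw [one_mul]; exact ps

/-- the shear clauses, quadratic branch -/
theorem nm_ph_act_q {s h lam c : ℝ} {π : SfPar} {q : NmQ} {a v : ℝ} (H : NmCd s h lam c π q a v) {x : NmRaw} {n : NmNm}
    (hin : NmIn s π q a v true x n) (hT : |x.Te - x.T| ≤ s ^ (a + lam * h))
    (hl : q.l π a v = q.ds.b a + v) (hbs : q.ds.bs = c) (hcut : q.ds.cut ≠ NmCut.none) (hc1 : c ≤ 1 → q.ds.cut ≠ NmCut.slope)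
    (hc2 : 1 < c → q.ds.cut = NmCut.slope)
    (f : ItPh) (hf : f = x.phase s π q a v true n) (μ : ItMk) (hμ : μ = x.mark s π q a true)
    (d : ItDsp) (hd : d = nmDsp s π q a v (a + lam * h) (x.name s π q (a + lam * h) v) n) :
    |d.L| ≤ 70 ∧ |d.R| ≤ 6 ∧ |d.b| ≤ 2 ∧ |f.P - d.L - 2 * d.R * f.X + 2 * d.b * (f.B + d.th * f.X)| ≤ 1 * (s ^ h) ^ (c * lam) ∧
    (c ≤ 1 → d.b = 0 ∧ |d.R - μ.r| ≤ 3 * (s ^ h) ^ (c * lam)) ∧
    (1 < c → |d.b - μ.k| + |d.R - d.th * d.b - (μ.r - μ.th * μ.k)| ≤ 3 * (s ^ h) ^ ((c - 1) * lam)) := by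
  have h0 := H.s0
  have h1 := H.s1
  obtain ⟨mb, dth, -, -, -, -, -⟩ := nm_ph_act_base H hin hT (fun _ => hcut) f hf μ hμ d hd
  have qd := nm_gd_quad h0 h1 H.hq H.ha x n hin.Fr hl hcut hT
  have dr := nm_gd_der h0 h1 π q a v (a + lam * h) x n
  have eΔ : a + lam * h - a = lam * h := by ring
  rw [H.pwl] at dr
  rw [eΔ, hbs, H.pw c, H.pw (c - 1)] at qd
  have e1 : s ^ (lam * h) = (s ^ h) ^ lam := by have := H.pw 1; rwa [one_mul, one_mul] at this
  rw [e1] at qd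
  have hδ0 := H.δ0
  have hδ1 := H.δ1
  have p1 : (s ^ h) ^ lam ≤ 1 := Real.rpow_le_one hδ0.le hδ1.le H.hlam.le
  have pc : (s ^ h) ^ (c * lam) ≤ 1 := Real.rpow_le_one hδ0.le hδ1.le (mul_pos H.hc H.hlam).le
  have pc0 : 0 < (s ^ h) ^ (c * lam) := Real.rpow_pos_of_pos hδ0 _
  obtain ⟨fX, fB, fP, -, -, -⟩ := nm_ph_nrm_ge (hin.bd h0)
  subst hf hμ hd
  set f := x.phase s π q a v true n with hf
  set μ := x.mark s π q a true with hμ
  set d := nmDsp s π q a v (a + lam * h) (x.name s π q (a + lam * h) v) n with hd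
  have bR : NmB d.R 6 := (((show NmB (d.R - μ.r) _ from qd.1).add (show NmB μ.r 3 from mb.2.1)).congr (by ring)).mono (by linarith)
  have bb : NmB d.b 2 := by
    by_cases hs : q.ds.cut = NmCut.slope
    · have hc : 1 ≤ c := by
        by_contra hlt
        exact hc1 (by linarith) hs
      have p2 : (s ^ h) ^ ((c - 1) * lam) ≤ 1 := Real.rpow_le_one hδ0.le hδ1.le (mul_nonneg (by linarith) H.hlam.le)
      exact (((show NmB (d.b - μ.k) _ from qd.2.1 hs).add (show NmB μ.k 1 from mb.2.2)).congr (by ring)).mono (by linarith)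
    · have : d.b = 0 := (qd.2.2 hs).1
      unfold NmB; rw [this]; norm_num
  have bW : NmB (f.B + d.th * f.X) (2 + 4 * 2) := (show NmB f.B 2 from fB).add ((show NmB d.th 4 from dth).mul (show NmB f.X 2 from fX))
  have bL : NmB d.L 70 := by
    have u := (((show NmB f.P 2 from fP).sub ((bR.mul (show NmB f.X 2 from fX)).add (bR.mul (show NmB f.X 2 from fX)))).add
      ((bb.mul bW).add (bb.mul bW))).sub (show NmB (f.P - d.L - 2 * d.R * f.X + 2 * d.b * (f.B + d.th * f.X)) _ from dr)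
    exact (u.congr (by ring)).mono (by linarith)
  refine ⟨bL, bR, bb, by rw [one_mul]; exact dr, fun hc => ?_, fun hc => ?_⟩
  · refine ⟨(qd.2.2 (hc1 hc)).1, qd.1.trans ?_⟩
    have : (s ^ h) ^ lam ≤ (s ^ h) ^ (c * lam) := nm_pow_anti hδ0 hδ1 (by nlinarith [H.hlam])
    linarith
  · have hs := hc2 hc
    have cn := nm_ph_cutn h0 h1 H.ha x n hin.Fr hl hs
    rw [eΔ, hbs, H.pw (c - 1)] at cn
    have := qd.2.1 hs
    linarith

/-- the shear clauses, linear branch -/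
theorem nm_ph_act_l {s h lam c : ℝ} {π : SfPar} {q : NmQ} {a v : ℝ} (H : NmCd s h lam c π q a v) {x : NmRaw} {n : NmNm}
    (hin : NmIn s π q a v false x n) (hT : |x.Te - x.T| ≤ s ^ (a + lam * h)) (hl : q.l π a v = π.b1 a) {K : ℝ} (hK : 0 ≤ K)
    (hsm : (⟨s, π, q, a, v, a + lam * h, v⟩ : NmG).cs * s ^ (v - q.l π a v) ≤ (s ^ h) ^ (2 * K + c * lam))
    (μ : ItMk) (hμ : μ = x.mark s π q a false)
    (d : ItDsp) (hd : d = nmDsp s π q a v (a + lam * h) (x.name s π q (a + lam * h) v) n) :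
    |d.L| ≤ 70 ∧ |d.R| ≤ 3 * (s ^ h) ^ (2 * K) ∧ |d.b| ≤ 2 * (s ^ h) ^ (2 * K) ∧ |μ.r - d.L| ≤ 53 * (s ^ h) ^ (c * lam) := by
  have h0 := H.s0
  have h1 := H.s1
  obtain ⟨mb, dth, -, -, -, -, -⟩ := nm_ph_act_base H hin hT (fun hq => by simp at hq) _ rfl μ hμ d hd
  have hL : n.L = nmCell s (π.b1 a) (x.Lraw s q a) := by
    have := hin.L rfl
    unfold NmRaw.Lc at this
    rw [hl] at this
    exact this.symm
  have ln := nm_gd_lin h0 h1 H.hq H.ha x n hin.Fr hl hL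
  have dr := nm_gd_der h0 h1 π q a v (a + lam * h) x n
  rw [H.pwl] at dr
  have hδ0 := H.δ0
  have hδ1 := H.δ1
  have hcl : 0 < c * lam := mul_pos H.hc H.hlam
  have q1 : (s ^ h) ^ (2 * K + c * lam) ≤ (s ^ h) ^ (2 * K) := nm_pow_anti hδ0 hδ1 (by linarith)
  have q2 : (s ^ h) ^ (2 * K + c * lam) ≤ (s ^ h) ^ (c * lam) := nm_pow_anti hδ0 hδ1 (by linarith)
  have pc : (s ^ h) ^ (c * lam) ≤ 1 := Real.rpow_le_one hδ0.le hδ1.le hcl.le
  have pc0 : 0 < (s ^ h) ^ (c * lam) := Real.rpow_pos_of_pos hδ0 _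
  obtain ⟨fX, fB, -, -, -, -⟩ := nm_ph_nrm_ge (hin.bd h0)
  have fX : NmB (x.phase s π q a v true n).X 2 := fX
  have fB : NmB (x.phase s π q a v true n).B 2 := fB
  subst hμ hd
  set f := x.phase s π q a v true n with hf
  set μ := x.mark s π q a false with hμ
  set d := nmDsp s π q a v (a + lam * h) (x.name s π q (a + lam * h) v) n with hd
  set E := (s ^ h) ^ (c * lam) with hE
  have bR : NmB d.R (3 * E) := le_trans ln.2.1 (by linarith)
  have bb : NmB d.b (2 * E) := le_trans ln.2.2 (by linarith)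
  have bW : NmB (f.B + d.th * f.X) (2 + 4 * 2) := fB.add ((show NmB d.th 4 from dth).mul fX)
  have e : NmB (μ.r - d.L) (53 * E) := by
    have u := ((show NmB (f.P - d.L - 2 * d.R * f.X + 2 * d.b * (f.B + d.th * f.X)) _ from dr).add ((bR.mul fX).add (bR.mul fX))).sub
      ((bb.mul bW).add (bb.mul bW))
    exact (u.congr (by rw [ln.1]; ring)).mono (by linarith)
  refine ⟨?_, le_trans ln.2.1 (by linarith), le_trans ln.2.2 (by linarith), e⟩
  have u : NmB d.L (3 + 53 * E) := ((show NmB μ.r 3 from mb.2.1).sub e).congr (by ring)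
  exact u.mono (by linarith)

/-- **`DspAt` at the actual phase and the exact marks**, loss `70` -/
theorem nm_ph_act (T : Tan) {s h lam c K : ℝ} {π : SfPar} {q : NmQ} {a v : ℝ} (H : NmCd s h lam c π q a v) {quad : Bool} {par : ItPar}
    (hTδ : T.δ = s ^ h) (hTq : T.quad = quad) (hpar : par.c = c) (hK : 0 ≤ K) {x : NmRaw} {n : NmNm}
    (hin : NmIn s π q a v quad x n) (hT : |x.Te - x.T| ≤ s ^ (a + lam * h))
    (hbq : quad = true → q.l π a v = q.ds.b a + v ∧ q.ds.bs = c ∧ q.ds.cut ≠ NmCut.none ∧ (c ≤ 1 → q.ds.cut ≠ NmCut.slope) ∧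
      (1 < c → q.ds.cut = NmCut.slope))
    (hbl : quad = false → q.l π a v = π.b1 a ∧
      (⟨s, π, q, a, v, a + lam * h, v⟩ : NmG).cs * s ^ (v - q.l π a v) ≤ (s ^ h) ^ (2 * K + c * lam)) :
    T.DspAt par K 70 lam (x.phase s π q a v quad n) (x.mark s π q a quad)
      (nmDsp s π q a v (a + lam * h) (x.name s π q (a + lam * h) v) n) := by
  have hδ0 := H.δ0
  have p : ∀ (C b : ℝ), C ≤ 70 → C * (s ^ h) ^ b ≤ 70 * (s ^ h) ^ b := fun C b hC =>
    mul_le_mul_of_nonneg_right hC (Real.rpow_nonneg hδ0.le _)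
  obtain ⟨mb, dth, tm, bW, bV, vl, ps⟩ := nm_ph_act_base H hin hT (fun hq => (hbq hq).2.2.1) _ rfl _ rfl _ rfl
  cases quad with
  | true =>
    obtain ⟨hl, hbs, hcut, hc1, hc2⟩ := hbq rfl
    obtain ⟨bL, bR, bb, dr, cc, cn⟩ := nm_ph_act_q H hin hT hl hbs hcut hc1 hc2 _ rfl _ rfl _ rfl
    refine ⟨⟨dth.trans (by norm_num), bL, bR.trans (by norm_num), bb.trans (by norm_num)⟩, ?_, ?_, ?_, ?_, ?_, ?_, ?_, ?_, ?_⟩
    · rw [hTδ]; exact tm.trans (p _ _ (by norm_num))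
    · rw [hTδ]; exact bW.trans (p _ _ (by norm_num))
    · rw [hTδ]; exact bV.trans (p _ _ (by norm_num))
    · rw [hTδ, hpar]; exact vl.trans (p _ _ (by norm_num))
    · rw [hTδ, hpar]; exact ps.trans (p _ _ (by norm_num))
    · intro _; rw [hTδ, hpar]; exact dr.trans (p _ _ (by norm_num))
    · intro _ hc; rw [hTδ, hpar]; rw [hpar] at hc; exact ⟨(cc hc).1, (cc hc).2.trans (p _ _ (by norm_num))⟩
    · intro _ hc; rw [hTδ, hpar]; rw [hpar] at hc; exact (cn hc).trans (p _ _ (by norm_num))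
    · intro hq; rw [hTq] at hq; exact absurd hq (by simp)
  | false =>
    obtain ⟨hl, hsm⟩ := hbl rfl
    obtain ⟨bL, bR, bb, dl⟩ := nm_ph_act_l H hin hT hl hK hsm _ rfl _ rfl
    have pK : (s ^ h) ^ (2 * K) ≤ 1 := Real.rpow_le_one hδ0.le H.δ1.le (by linarith)
    refine ⟨⟨dth.trans (by norm_num), bL, bR.trans (by linarith), bb.trans (by linarith)⟩, ?_, ?_, ?_, ?_, ?_, ?_, ?_, ?_, ?_⟩
    · rw [hTδ]; exact tm.trans (p _ _ (by norm_num))
    · rw [hTδ]; exact bW.trans (p _ _ (by norm_num))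
    · rw [hTδ]; exact bV.trans (p _ _ (by norm_num))
    · rw [hTδ, hpar]; exact vl.trans (p _ _ (by norm_num))
    · rw [hTδ, hpar]; exact ps.trans (p _ _ (by norm_num))
    · intro hq; rw [hTq] at hq; exact absurd hq (by simp)
    · intro hq; rw [hTq] at hq; exact absurd hq (by simp)
    · intro hq; rw [hTq] at hq; exact absurd hq (by simp)
    · intro _; rw [hTδ, hpar]; exact ⟨dl.trans (p _ _ (by norm_num)), bR.trans (p _ _ (by norm_num)), bb.trans (p _ _ (by norm_num))⟩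

end

end Claimed.Agent.R256
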