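import Claimed.Agent.R256.Nm.Pha.List
import Claimed.Agent.R256.Nm.Pha.Pert

/-!
# Row 256, unit NM, sub-block NM-PHA, file 7: WIDTH NAMES (T6 of `Tan.Adm`)      (helper143; prefix `nm_ph`)

PAPER-FREE.
* `nm_ph_hs_of` : two common phases with the same Heisenberg name `F_{l,2l}`; actual phases `δ^(2l)`-close to them are Heisenberg-close at the scale `δ^l` (`NmHs`).
* `nm_ph_iso_of` : the same isotropic name `F_l` : the actual phases are `3 δ^l`-close.
* `nm_ph_hu_of_hs`, `nm_ph_iu_of_dist` : from normalised phases to frame coordinates.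
* `nm_ph_wlist_q`, `nm_ph_wlist_l` : the lists of width names.
-/

set_option autoImplicit false

namespace Claimed.Agent.R256

open Claimed.Agent.R255
open Classical

noncomputable section

/-- the same Heisenberg name of the common phases -/
theorem nm_ph_hs_of {δ l : ℝ} (h0 : 0 < δ) (h1 : δ < 1) (hl : 0 < l) {f g f' g' : ItPh} (hfg : itHs δ l (2 * l) f = itHs δ l (2 * l) g)
    (hf : f.nrm ≤ 1) (hf' : nmPhDist f' f ≤ δ ^ (2 * l)) (hg' : nmPhDist g' g ≤ δ ^ (2 * l)) : NmHs (δ ^ l) 30 f' g' := by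
  set η : ℝ := δ ^ l with hη
  have hη0 : 0 < η := Real.rpow_pos_of_pos h0 _
  have hη1 : η ≤ 1 := Real.rpow_le_one h0.le h1.le hl.le
  have e2 : δ ^ (2 * l) = η ^ 2 := by
    rw [hη, ← Real.rpow_natCast, ← Real.rpow_mul h0.le]; congr 1; push_cast; ring
  have hηη : η ^ 2 ≤ η := by nlinarith
  rw [e2] at hf' hg'
  unfold itHs at hfg
  simp only [Prod.mk.injEq] at hfg
  obtain ⟨⟨c1, c2, c3⟩, c4, c5, c6⟩ := hfg
  have ex : trep δ l g.X = trep δ l f.X := (nm_ph_trep_congr c1).symm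
  have ep : trep δ l g.P = trep δ l f.P := (nm_ph_trep_congr c3).symm
  rw [ex] at c4
  rw [ep] at c5 c6
  have cX : NmB (f.X - g.X) η := nm_ph_tcell_close h0 h1 c1
  have cB : NmB (f.B - g.B) η := nm_ph_tcell_close h0 h1 c2
  have cP : NmB (f.P - g.P) η := nm_ph_tcell_close h0 h1 c3
  have cY : NmB ((f.Y - 2 * trep δ l f.X * f.B) - (g.Y - 2 * trep δ l f.X * g.B)) (η ^ 2) := e2 ▸ nm_ph_tcell_close h0 h1 c4
  have cN : NmB ((f.N - trep δ l f.P * f.X) - (g.N - trep δ l f.P * g.X)) (η ^ 2) := e2 ▸ nm_ph_tcell_close h0 h1 c5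
  have cD : NmB ((f.D - trep δ l f.P * f.B) - (g.D - trep δ l f.P * g.B)) (η ^ 2) := e2 ▸ nm_ph_tcell_close h0 h1 c6
  set xb : ℝ := trep δ l f.X with hxb
  set pb : ℝ := trep δ l f.P with hpb
  have rx : NmB (f.X - xb) η := nm_ph_trep_abs h0 h1 l f.X
  have rp : NmB (f.P - pb) η := nm_ph_trep_abs h0 h1 l f.P
  obtain ⟨fX, -, fP, -, -, -⟩ := nm_ph_nrm_ge hf
  have bx : NmB xb 2 := (((show NmB f.X 1 from fX).sub rx).congr (by ring)).mono (by linarith)
  have bp : NmB pb 2 := (((show NmB f.P 1 from fP).sub rp).congr (by ring)).mono (by linarith)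
  obtain ⟨aX, aB, aP, aY, aN, aD⟩ := nm_ph_dist_ge hf'
  obtain ⟨bX, bB, bP, bY, bN, bD⟩ := nm_ph_dist_ge hg'
  have aX : NmB (f'.X - f.X) (η ^ 2) := aX
  have aB : NmB (f'.B - f.B) (η ^ 2) := aB
  have aP : NmB (f'.P - f.P) (η ^ 2) := aP
  have aY : NmB (f'.Y - f.Y) (η ^ 2) := aY
  have aN : NmB (f'.N - f.N) (η ^ 2) := aN
  have aD : NmB (f'.D - f.D) (η ^ 2) := aD
  have bX : NmB (g'.X - g.X) (η ^ 2) := bX
  have bB : NmB (g'.B - g.B) (η ^ 2) := bB
  have bP : NmB (g'.P - g.P) (η ^ 2) := bP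
  have bY : NmB (g'.Y - g.Y) (η ^ 2) := bY
  have bN : NmB (g'.N - g.N) (η ^ 2) := bN
  have bD : NmB (g'.D - g.D) (η ^ 2) := bD
  have dX : NmB (f'.X - g'.X) (3 * η) := (((aX.add cX).sub bX).congr (by ring)).mono (by linarith)
  have dB : NmB (f'.B - g'.B) (3 * η) := (((aB.add cB).sub bB).congr (by ring)).mono (by linarith)
  have dP : NmB (f'.P - g'.P) (3 * η) := (((aP.add cP).sub bP).congr (by ring)).mono (by linarith)
  have sx : NmB (f'.X - xb) (2 * η) := ((aX.add rx).congr (by ring)).mono (by linarith)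
  have sp : NmB (f'.P - pb) (2 * η) := ((aP.add rp).congr (by ring)).mono (by linarith)
  refine ⟨dX.mono (by linarith), dB.mono (by linarith), dP.mono (by linarith), ?_, ?_, ?_⟩
  · have u := (((cY.add aY).sub bY).sub ((sx.mul dB).add (sx.mul dB))).sub ((bx.mul (aB.sub bB)).add (bx.mul (aB.sub bB)))
    exact (u.congr (by ring)).mono (by nlinarith)
  · have u := (((cN.add aN).sub bN).sub (sp.mul dX)).sub (bp.mul (aX.sub bX))
    exact (u.congr (by ring)).mono (by nlinarith)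
  · have u := (((cD.add aD).sub bD).sub (sp.mul dB)).sub (bp.mul (aB.sub bB))
    exact (u.congr (by ring)).mono (by nlinarith)

/-- the same isotropic name of the common phases -/
theorem nm_ph_iso_of {δ l : ℝ} (h0 : 0 < δ) (h1 : δ < 1) {f g f' g' : ItPh} (hfg : itF δ l f = itF δ l g)
    (hf' : nmPhDist f' f ≤ δ ^ l) (hg' : nmPhDist g' g ≤ δ ^ l) : nmPhDist f' g' ≤ 3 * δ ^ l := by
  unfold itF at hfg
  simp only [Prod.mk.injEq] at hfg
  obtain ⟨⟨c1, c2, c3⟩, c4, c5, c6⟩ := hfg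
  obtain ⟨aX, aB, aP, aY, aN, aD⟩ := nm_ph_dist_ge hf'
  obtain ⟨bX, bB, bP, bY, bN, bD⟩ := nm_ph_dist_ge hg'
  have key : ∀ u w u' w' : ℝ, tcell δ l u = tcell δ l w → |u' - u| ≤ δ ^ l → |w' - w| ≤ δ ^ l → |u' - w'| ≤ 3 * δ ^ l := by
    intro u w u' w' c a b
    have c' : NmB (u - w) (δ ^ l) := nm_ph_tcell_close h0 h1 c
    exact ((((show NmB (u' - u) _ from a).add c').sub (show NmB (w' - w) _ from b)).congr (by ring)).mono (le_of_eq (by ring))
  exact nm_ph_dist_le (key _ _ _ _ c1 aX bX) (key _ _ _ _ c2 aB bB) (key _ _ _ _ c3 aP bP) (key _ _ _ _ c4 aY bY) (key _ _ _ _ c5 aN bN)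
    (key _ _ _ _ c6 aD bD)

/-- from `|u / S| ≤ C η^k` to `NmO` -/
theorem nm_ph_O_of_div {s u C b c e : ℝ} (h0 : 0 < s) (h : |u / s ^ b| ≤ C * s ^ e) (hc : c = e + b) : NmO s u C c := by
  have := nm_ph_le_of_div (Real.rpow_pos_of_pos h0 b) h
  unfold NmO
  rw [hc, Real.rpow_add h0, ← mul_assoc]
  exact this

/-- from normalised phases to frame coordinates, Heisenberg closeness -/
theorem nm_ph_hu_of_hs {s : ℝ} (h0 : 0 < s) {π : SfPar} {q : NmQ} {a v v' C : ℝ} {n : NmNm} {x y : NmRaw}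
    (h : NmHs (s ^ (v' - v)) C (x.phase s π q a v true n) (y.phase s π q a v true n)) : NmHu s π q a v v' C x y n := by
  have w1 := nm_w_eq q π a v
  obtain ⟨hX, hB, hP, hY, hN, hD⟩ := h
  rw [nm_ph_phase, nm_ph_phase] at hX hB hP hY hN hD
  simp only [if_true] at hX hB hP hY hN hD
  have e2 : (s ^ (v' - v)) ^ 2 = s ^ (2 * (v' - v)) := by
    rw [← Real.rpow_natCast, ← Real.rpow_mul h0.le]; congr 1; push_cast; ring
  rw [e2] at hY hN hD
  have pv : s ^ v ≠ 0 := (Real.rpow_pos_of_pos h0 _).ne'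
  have pav : s ^ (a + v) ≠ 0 := (Real.rpow_pos_of_pos h0 _).ne'
  have pl : s ^ (q.l π a v) ≠ 0 := (Real.rpow_pos_of_pos h0 _).ne'
  have m1 : s ^ (a + 2 * v) = s ^ v * s ^ (a + v) := by rw [← Real.rpow_add h0]; congr 1; ring
  have m2 : s ^ (q.w π a v) = s ^ (q.l π a v) * s ^ v := by rw [← Real.rpow_add h0, w1]
  have m3 : s ^ (a + q.w π a v) = s ^ (q.l π a v) * s ^ (a + v) := by rw [← Real.rpow_add h0, w1]; congr 1; ring
  refine ⟨?_, ?_, ?_, ?_, ?_, ?_⟩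
  · rw [← sub_div] at hX
    exact nm_ph_O_of_div h0 hX (by ring)
  · rw [← sub_div] at hB
    exact nm_ph_O_of_div h0 hB (by ring)
  · rw [← sub_div] at hP
    exact nm_ph_O_of_div h0 hP (by ring)
  · refine nm_ph_O_of_div (b := a + 2 * v) (e := 2 * (v' - v)) h0 ?_ (by ring)
    refine le_of_eq_of_le (congrArg abs ?_) hY
    rw [m1]; field_simp
  · refine nm_ph_O_of_div (b := q.w π a v) (e := 2 * (v' - v)) h0 ?_ (by ring)
    refine le_of_eq_of_le (congrArg abs ?_) hN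
    rw [m2]; field_simp
  · refine nm_ph_O_of_div (b := a + q.w π a v) (e := 2 * (v' - v)) h0 ?_ (by ring)
    refine le_of_eq_of_le (congrArg abs ?_) hD
    rw [m3]; field_simp

/-- from normalised phases to frame coordinates, isotropic closeness -/
theorem nm_ph_iu_of_dist {s : ℝ} (h0 : 0 < s) {π : SfPar} {q : NmQ} {a v v' C : ℝ} {quad : Bool} {n : NmNm} {x y : NmRaw}
    (h : nmPhDist (x.phase s π q a v quad n) (y.phase s π q a v quad n) ≤ C * s ^ (v' - v)) : NmIu s π q a v v' C x y n := by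
  rw [nm_ph_phase, nm_ph_phase] at h
  obtain ⟨hX, hB, -, hY, hN, hD⟩ := nm_ph_dist_ge h
  simp only [← sub_div] at hX hB hY hN hD
  exact ⟨nm_ph_O_of_div h0 hX (by ring), nm_ph_O_of_div h0 hB (by ring), nm_ph_O_of_div h0 hY (by ring), nm_ph_O_of_div h0 hN (by ring),
    nm_ph_O_of_div h0 hD (by ring)⟩

/-- the constant of the lists of width names -/
def nmKq : ℝ := 182 ^ 10

/-- **quadratic branch: the list of width names** -/
theorem nm_ph_wlist_q {s : ℝ} (h0 : 0 < s) (h1 : s < 1) {π : SfPar} {q : NmQ} (hg : q.g = 0) {a v v' : ℝ}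
    (hl : q.l π a v' = q.l π a v + (v' - v)) (n : NmNm) (T : Set NmRaw) (hT : ∀ x ∈ T, NmIn s π q a v true x n)
    (hTT : ∀ x ∈ T, ∀ y ∈ T, NmHs (s ^ (v' - v)) 30 (x.phase s π q a v true n) (y.phase s π q a v true n)) :
    ∃ S : Finset NmNm, (S.card : ℝ) ≤ nmKq ∧ ∀ x ∈ T, x.name s π q a v' ∈ S := by
  obtain ⟨S, hS, hmem⟩ := nm_aux_list (fun _ => 6 * 30 + 1) (fun _ => by norm_num) {c | ∃ x ∈ T, x.name s π q a v' = c} (by
    rintro _ ⟨x, hx, rfl⟩ _ ⟨y, hy, rfl⟩ i hp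
    exact nm_ph_wid_q h0 h1 hg hl (hT x hx) (hT y hy) (nm_ph_hu_of_hs h0 (hTT x hx y hy)) i hp)
  refine ⟨S, hS.trans ?_, fun x hx => hmem _ ⟨x, hx, rfl⟩⟩
  simp only [Finset.prod_const, Finset.card_univ, Fintype.card_fin, nmKq]
  norm_num

/-- **linear branch: the list of width names** -/
theorem nm_ph_wlist_l {s : ℝ} (h0 : 0 < s) (h1 : s < 1) {π : SfPar} {q : NmQ} (hg : q.g = 0) {a v v' : ℝ} (hv : v ≤ v')
    (hl : q.l π a v' = q.l π a v) (n : NmNm) (T : Set NmRaw) (hT : ∀ x ∈ T, NmIn s π q a v false x n)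
    (hTT : ∀ x ∈ T, ∀ y ∈ T, nmPhDist (x.phase s π q a v false n) (y.phase s π q a v false n) ≤ 3 * s ^ (v' - v)) :
    ∃ S : Finset NmNm, (S.card : ℝ) ≤ 200000 * s ^ (-(v' - v)) ∧ ∀ x ∈ T, x.name s π q a v' ∈ S := by
  have hE : 1 ≤ s ^ (-(v' - v)) := Real.one_le_rpow_of_pos_of_le_one_of_nonpos h0 h1.le (by linarith)
  obtain ⟨S, hS, hmem⟩ := nm_aux_list (nmKw 3 (s ^ (-(v' - v)))) (fun i => by fin_cases i <;> simp [nmKw] <;> positivity)
    {c | ∃ x ∈ T, x.name s π q a v' = c} (by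
    rintro _ ⟨x, hx, rfl⟩ _ ⟨y, hy, rfl⟩ i hp
    exact nm_ph_wid_l h0 h1 hg hv hl (hT x hx) (hT y hy) (nm_ph_iu_of_dist h0 (hTT x hx y hy)) i hp)
  refine ⟨S, hS.trans ?_, fun x hx => hmem _ ⟨x, hx, rfl⟩⟩
  generalize s ^ (-(v' - v)) = E at hE
  simp only [Fin.prod_univ_succ, nmKw]
  simp
  nlinarith

theorem nm_ph_wid_eqns_cite : True := by
  have := @nmKq.eq_1
  trivial

end

end Claimed.Agent.R256
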