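import Claimed.Agent.R256.Nm.Grd.Root
import Claimed.Agent.R256.Nm.Pro.Mono
import Claimed.Agent.R256.Nm.Pha.Rep
import Claimed.Agent.R256.Nm.Pha.Wid
import Claimed.Agent.R256.Nm.Pha.Act

/-!
# Row 256, unit NM, sub-block NM-PHA, file 9: ASSEMBLY, `NmGeo` OF THE ONE-RECORD TANGENT DATUM      (helper143; prefix `nm_ph`)

* `NmRt.Sm r π pk` : the gap `r.h` is small with respect to the slack of the side (`NmRt.sl`) and to the distance of the root from the change of branch (clipped templates).   EXPLICIT and monotone in `h`: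
  every field is `const(pk, q, π) * h ≤ margin(a, v)`, the margins are `sl / 2` and AFFINE functions of `(a, v)`.
* **`nm_pha_geo_core`** : `r.Ok π 2`, `3 ≤ r.B`, `pk.Ok`, `r.Sm π pk`, `r.Fits π pk` ⇒ `NmA .. NmGeo (nmTan D π r nmDsp..)`.
The exits (`nm_tan_geo` at one root, `lay_port_geo` = `lay_ri_geo` uniform on a patch) are in `Pha/Exit.lean`: choose `h0 = margin / (const + 1)`.
-/

set_option autoImplicit false

namespace Claimed.Agent.R256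

open Claimed.Agent.R255
open Claimed.Agent.R255.FLaw (pair)
open Classical

noncomputable section

/-- **the gap is small**: w.r.t. the slack of the side, and w.r.t. the distance from the change of branch -/
structure NmRt.Sm (r : NmRt) (π : SfPar) (pk : ItPk) : Prop where
  sl : ∀ l ∈ pk.Lam, (2 + r.c π) * l * r.h ≤ r.sl π / 2
  q : r.σ.lin = false → r.q.tp = NmTp.clip → ∀ l ∈ pk.Lam,
    (1 + r.q.ds.bs + |π.q - π.J|) * l * r.h ≤ π.b1 r.a - r.q.ds.b r.a - r.v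
  l : r.σ.lin = true → r.q.tp = NmTp.clip → ∀ l ∈ pk.Lam,
    (2 * pk.K + (1 + r.q.ds.bs + |π.q - π.J|) * l) * r.h ≤ r.q.ds.b r.a + r.v - π.b1 r.a

/-- the decoder of the child names of a root -/
def NmRt.dsp (r : NmRt) (π : SfPar) (s : ℝ) : ℝ → NmNm → NmNm → ItDsp := fun l c n => nmDsp s π r.q r.a r.v (r.a + l * r.h) c n

/-! ## what the family says -/

/-- quadratic branch: rate and cut -/
theorem nm_ph_fam_q {π : SfPar} {r : NmRt} {Λ : ℝ} (hr : r.Ok π Λ) (hl : r.σ.lin = false) :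
    r.q.ds.bs = r.c π ∧ r.q.ds.cut ≠ NmCut.none ∧ (r.c π ≤ 1 → r.q.ds.cut ≠ NmCut.slope) ∧ (1 < r.c π → r.q.ds.cut = NmCut.slope) := by
  have hc : r.c π = r.q.ds.bs := by unfold NmRt.c; rw [hl]; simp
  have htp := (hr.brq hl).1
  obtain ⟨-, -, h⟩ := hr.q
  rw [hc]
  rcases h with ⟨-, -, h3, -⟩ | ⟨-, -, -, h4⟩ | ⟨-, -, -, De, -, -, -, h3⟩
  · rw [h3]
    simp only [nmDsEq]
    refine ⟨trivial, ?_, ?_, ?_⟩
    · split_ifs <;> simp
    · intro h; rw [if_neg (not_lt.2 h)]; simp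
    · intro h; rw [if_pos h]
  · exact absurd h4 htp
  · rw [h3]
    simp only [nmDsStr]
    exact ⟨trivial, by simp, fun _ => by simp, fun h => absurd h (lt_irrefl _)⟩

theorem nm_ph_c_lin {π : SfPar} {r : NmRt} (hl : r.σ.lin = true) : r.c π = π.q - π.J := by unfold NmRt.c; rw [hl]; simp

/-- the branch persists at the time children -/
theorem nm_ph_child_l {π : SfPar} (hπ : π.Valid) {r : NmRt} {Λ : ℝ} (hr : r.Ok π Λ) {pk : ItPk} (hS : r.Sm π pk) (hh : 0 < r.h) (hK : 0 ≤ pk.K)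
    {l : ℝ} (hl : l ∈ pk.Lam) (hl0 : 0 < l) : r.q.l π (r.a + l * r.h) r.v = r.q.l π r.a r.v + r.c π * (l * r.h) := by
  have ht : 0 < l * r.h := mul_pos hl0 hh
  have hq := nm_fam_ok π hπ r.q hr.q
  have hbs := hq.bs0
  have a1 := neg_abs_le (π.q - π.J)
  have a2 := le_abs_self (π.q - π.J)
  cases hlin : r.σ.lin with
  | false =>
    obtain ⟨htp, hl1⟩ := hr.brq hlin
    rw [hl1, ← (nm_ph_fam_q hr hlin).1]
    have eb : r.q.ds.b (r.a + l * r.h) = r.q.ds.b r.a + r.q.ds.bs * (l * r.h) := by unfold NmDs.b; ring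
    unfold NmQ.l
    cases htq : r.q.tp with
    | quad => simp only; rw [eb]; ring
    | clip =>
      simp only
      have g := hS.q hlin htq l hl
      have e1 : π.b1 (r.a + l * r.h) = π.b1 r.a + (π.q - π.J) * (l * r.h) := by unfold SfPar.b1; ring
      have g2 : (r.q.ds.bs - (π.q - π.J)) * (l * r.h) ≤ (1 + r.q.ds.bs + |π.q - π.J|) * (l * r.h) :=
        mul_le_mul_of_nonneg_right (by linarith) ht.le
      rw [min_eq_left (by rw [eb, e1]; nlinarith), eb]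
      ring
    | plin => exact absurd htq htp
  | true =>
    rw [nm_ph_lin_l hr hlin r.v le_rfl, nm_ph_c_lin hlin]
    have e1 : π.b1 (r.a + l * r.h) = π.b1 r.a + (π.q - π.J) * (l * r.h) := by unfold SfPar.b1; ring
    unfold NmQ.l
    rcases hr.brl hlin with htq | ⟨-, htq, -⟩
    · rw [htq]; exact e1
    · rw [htq]
      simp only
      have g := hS.l hlin htq l hl
      have eb : r.q.ds.b (r.a + l * r.h) = r.q.ds.b r.a + r.q.ds.bs * (l * r.h) := by unfold NmDs.b; ring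
      have g2 : ((π.q - π.J) - r.q.ds.bs) * (l * r.h) ≤ (1 + r.q.ds.bs + |π.q - π.J|) * (l * r.h) :=
        mul_le_mul_of_nonneg_right (by linarith) ht.le
      have g3 : 0 ≤ 2 * pk.K * r.h := by positivity
      rw [min_eq_right (by rw [eb, e1]; nlinarith), e1]

/-- quadratic branch: it persists at the width children -/
theorem nm_ph_width_q {π : SfPar} (hπ : π.Valid) {r : NmRt} {Λ : ℝ} (hr : r.Ok π Λ) {pk : ItPk} (hS : r.Sm π pk) (hh : 0 < r.h) (hlin : r.σ.lin = false)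
    {l : ℝ} (hl : l ∈ pk.Lam) (hl0 : 0 < l) : r.q.l π r.a (r.v + l * r.h) = r.q.l π r.a r.v + (r.v + l * r.h - r.v) := by
  have ht : 0 < l * r.h := mul_pos hl0 hh
  have hbs := (nm_fam_ok π hπ r.q hr.q).bs0
  obtain ⟨htp, hl1⟩ := hr.brq hlin
  rw [hl1]
  unfold NmQ.l
  cases htq : r.q.tp with
  | quad => simp only; ring
  | clip =>
    simp only
    have g := hS.q hlin htq l hl
    have g2 : 1 * (l * r.h) ≤ (1 + r.q.ds.bs + |π.q - π.J|) * (l * r.h) :=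
      mul_le_mul_of_nonneg_right (by linarith [abs_nonneg (π.q - π.J)]) ht.le
    rw [min_eq_left (by nlinarith)]
    ring
  | plin => exact absurd htq htp

/-- linear branch: the curvature of the display is below the largest tested depth -/
theorem nm_ph_lin_sm {π : SfPar} (hπ : π.Valid) {r : NmRt} {Λ : ℝ} (hr : r.Ok π Λ) {pk : ItPk} (hS : r.Sm π pk) (hh : 0 < r.h) (hlin : r.σ.lin = true)
    {s : ℝ} (h0 : 0 < s) (h1 : s < 1) {l : ℝ} (hl : l ∈ pk.Lam) (hl0 : 0 < l) :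
    (⟨s, π, r.q, r.a, r.v, r.a + l * r.h, r.v⟩ : NmG).cs * s ^ (r.v - r.q.l π r.a r.v) ≤ (s ^ r.h) ^ (2 * pk.K + r.c π * l) := by
  have ht : 0 < l * r.h := mul_pos hl0 hh
  have hq := nm_fam_ok π hπ r.q hr.q
  have hbs := hq.bs0
  have hR : 0 < (s ^ r.h) ^ (2 * pk.K + r.c π * l) := Real.rpow_pos_of_pos (Real.rpow_pos_of_pos h0 _) _
  rw [nm_ph_lin_l hr hlin r.v le_rfl, nm_ph_c_lin hlin]
  rw [nm_ph_c_lin hlin] at hR
  rcases hr.brl hlin with htq | ⟨-, htq, -⟩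
  · have hc := hq.pl htq
    have : (⟨s, π, r.q, r.a, r.v, r.a + l * r.h, r.v⟩ : NmG).cs = 0 := by
      unfold NmG.cs
      simp only [hc]
    rw [this, zero_mul]
    exact hR.le
  · have hcs : (⟨s, π, r.q, r.a, r.v, r.a + l * r.h, r.v⟩ : NmG).cs ≤ s ^ (r.q.ds.b r.a) := by
      unfold NmG.cs
      cases hc : r.q.ds.cut with
      | none => simp only; exact (Real.rpow_pos_of_pos h0 _).le
      | slope => exact le_rfl
      | const => exact le_rfl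
    have g := hS.l hlin htq l hl
    have g2 : (π.q - π.J) * (l * r.h) ≤ (1 + r.q.ds.bs + |π.q - π.J|) * (l * r.h) :=
      mul_le_mul_of_nonneg_right (by linarith [le_abs_self (π.q - π.J)]) ht.le
    calc _ ≤ s ^ (r.q.ds.b r.a) * s ^ (r.v - π.b1 r.a) := mul_le_mul_of_nonneg_right hcs (Real.rpow_pos_of_pos h0 _).le
      _ = s ^ (r.q.ds.b r.a + r.v - π.b1 r.a) := by rw [← Real.rpow_add h0]; congr 1; ring
      _ ≤ s ^ (r.h * (2 * pk.K + (π.q - π.J) * l)) := nm_pow_anti h0 h1 (by nlinarith)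
      _ = _ := Real.rpow_mul h0.le _ _

/-! ## the stored marks -/

theorem nm_ph_store_bd {δ Rm B : ℝ} (h0 : 0 < δ) (h1 : δ < 1) (hRm : 0 ≤ Rm) (hB : 0 ≤ B) (μ : ItMk) :
    |(nmStore δ Rm B μ).th| ≤ B + 1 ∧ |(nmStore δ Rm B μ).r| ≤ B + 1 ∧ |(nmStore δ Rm B μ).k| ≤ B + 1 := by
  have hp : δ ^ Rm ≤ 1 := Real.rpow_le_one h0.le h1.le hRm
  have key : ∀ x : ℝ, |x| ≤ B → |trep δ Rm x| ≤ B + 1 := by
    intro x hx
    have a := abs_le.1 (nm_ph_trep_abs h0 h1 Rm x)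
    have b := abs_le.1 hx
    rw [abs_le]; constructor <;> linarith [a.1, a.2, b.1, b.2]
  unfold nmStore
  split_ifs with h
  · exact ⟨key _ h.1, key _ h.2.1, key _ h.2.2⟩
  · simp only [abs_zero]
    exact ⟨by linarith, by linarith, by linarith⟩

theorem nm_ph_store_cl {δ Rm B : ℝ} (h0 : 0 < δ) (h1 : δ < 1) (μ : ItMk) (h : |μ.th| ≤ B ∧ |μ.r| ≤ B ∧ |μ.k| ≤ B) :
    |(nmStore δ Rm B μ).th - μ.th| ≤ δ ^ Rm ∧ |(nmStore δ Rm B μ).r - μ.r| ≤ δ ^ Rm ∧ |(nmStore δ Rm B μ).k - μ.k| ≤ δ ^ Rm := by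
  unfold nmStore
  rw [if_pos h]
  refine ⟨?_, ?_, ?_⟩ <;> (rw [abs_sub_comm]; exact nm_ph_trep_abs h0 h1 _ _)

/-! ## thresholds -/

/-- a constant is absorbed by the loss factor -/
theorem nm_ph_loss {C s h acc : ℝ} (hC : 1 ≤ C) (hh : 0 < h) (hacc : 0 < acc) (h0 : 0 < s) (h1 : s < 1) (hs : s ≤ (1 / C) ^ (2 / (acc * h))) :
    C ≤ (s ^ h) ^ (-acc) := by
  have he : 0 < acc * h := mul_pos hacc hh
  have a1 := nm_ph_absorb hC he h0 hs
  have a2 : s ^ (acc * h / 2) ≤ 1 := Real.rpow_le_one h0.le h1.le (by positivity)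
  have p : 0 < s ^ (acc * h) := Real.rpow_pos_of_pos h0 _
  have e : (s ^ h) ^ (-acc) = (s ^ (acc * h))⁻¹ := by
    rw [← Real.rpow_mul h0.le, ← Real.rpow_neg h0.le]; congr 1; ring
  rw [e, le_inv_comm₀ (by linarith) p, ← one_div, le_div_iff₀ (by linarith)]
  linarith

theorem nm_ph_small {s h acc : ℝ} (hh : 0 < h) (hacc : 0 < acc) (h0 : 0 < s) (hs : s ≤ (acc / 2) ^ (1 / h)) : s ^ h < acc := by
  have : s ^ h ≤ ((acc / 2) ^ (1 / h)) ^ h := Real.rpow_le_rpow h0.le hs hh.le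
  rw [← Real.rpow_mul (by positivity), one_div, inv_mul_cancel₀ hh.ne', Real.rpow_one] at this
  linarith

/-! ## the clauses at one configuration -/

/-- the scale is small (with respect to the root, the gap and the accuracy) -/
structure NmSc (s acc : ℝ) (r : NmRt) (π : SfPar) : Prop where
  s0 : 0 < s
  s1 : s < 1
  thr : 50 * s ^ (r.sl π) ≤ s ^ (r.sl π / 2)
  sm : s ^ r.h < acc
  loss : nmKq ≤ (s ^ r.h) ^ (-acc)

/-- the slack of the side beats every depth `≤ (2 + c) l` of the package -/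
theorem nm_ph_geo_pw {π : SfPar} {r : NmRt} {pk : ItPk} (hS : r.Sm π pk) (hh : 0 < r.h) {s : ℝ} (h0 : 0 < s) (h1 : s < 1)
    {l : ℝ} (hl : l ∈ pk.Lam) {b : ℝ} (hb : b ≤ (2 + r.c π) * l) : s ^ (r.sl π / 2) ≤ (s ^ r.h) ^ b := by
  rw [← Real.rpow_mul h0.le]
  refine nm_pow_anti h0 h1 (le_trans ?_ (hS.sl l hl))
  have := mul_le_mul_of_nonneg_right hb hh.le
  linarith

/-- **T5** -/
theorem nm_ph_geo_dsp {π : SfPar} (hπ : π.Valid) {r : NmRt} (hr : r.Ok π 2) (hB : 3 ≤ r.B) {pk : ItPk} (hpk : pk.Ok) (hS : r.Sm π pk) (hF : r.Fits π pk)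
    (D : SfDoc) {acc : ℝ} (hsc : NmSc D.s acc r π)
    (hT : ∀ ω, (D.P 1).p ω ≠ 0 → ∀ l ∈ pk.Lam, |(D.raw π r.q.ds ω).Te - (D.raw π r.q.ds ω).T| ≤ D.s ^ (r.a + l * r.h))
    {p : ItPar} (hp : r.Reg π (r.B + 1) p) {l : ℝ} (hl : l ∈ pk.Lam) (ω : D.Row 1) (hω : (D.P 1).p ω ≠ 0) :
    (nmTan D π r (r.dsp π D.s)).DspAt p pk.K ((D.s ^ r.h) ^ (-acc)) l (D.fst π r (D.side π r.q r.σ r.a ω)) (D.smk π r ω)
      (r.dsp π D.s l (D.nm π r.q (r.a + l * r.h) r.v ω) (D.cs π r ω)) := by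
  have h0 := hsc.s0
  have h1 := hsc.s1
  obtain ⟨hh, -, -, -, -, hRm⟩ := hF
  have hl0 : 0 < l := hpk.2.2.2.2.2.1 l hl
  have hK : 0 ≤ pk.K := hpk.2.1.le
  have hc := hr.rate
  have hsl := nm_ph_sl_pos hr
  obtain ⟨hin, hcl, hnrm⟩ := nm_ph_doc hπ hr D h0 h1 (by linarith : 0 ≤ r.sl π / 2) hsc.thr ω hω
  have H : NmCd D.s r.h l (r.c π) π r.q r.a r.v :=
    ⟨h0, h1, nm_fam_ok π hπ r.q hr.q, hr.g0, hh, hl0, hc, nm_ph_child_l hπ hr hS hh hK hl hl0⟩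
  have hδ0 : 0 < (nmTan D π r (r.dsp π D.s)).δ := H.δ0
  have hδ1 : (nmTan D π r (r.dsp π D.s)).δ < 1 := H.δ1
  have hcut : (!r.σ.lin) = true → r.q.ds.cut ≠ NmCut.none := fun hq => (nm_ph_fam_q hr (by simpa using hq)).2.1
  have act := nm_ph_act (nmTan D π r (r.dsp π D.s)) H (quad := !r.σ.lin) rfl rfl hp.1 hK hin (hT ω hω l hl)
    (fun hq => by
      have hlin : r.σ.lin = false := by simpa using hq
      have f := nm_ph_fam_q hr hlin
      exact ⟨(hr.brq hlin).2, f.1, f.2.1, f.2.2.1, f.2.2.2⟩)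
    (fun hq => by
      have hlin : r.σ.lin = true := by simpa using hq
      exact ⟨nm_ph_lin_l hr hlin r.v le_rfl, nm_ph_lin_sm hπ hr hS hh hlin h0 h1 hl hl0⟩)
  have mb := (nm_ph_act_base H hin (hT ω hω l hl) hcut _ rfl _ rfl _ rfl).1
  have hpc : 0 < p.c := by rw [hp.1]; exact hc
  have st := nm_ph_store_cl (Rm := r.Rm) (B := r.B) H.δ0 H.δ1 ((D.raw π r.q.ds ω).mark D.s π r.q r.a (!r.σ.lin))
    ⟨by linarith [mb.1], by linarith [mb.2.1], by linarith [mb.2.2]⟩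
  have e1 : D.s ^ (r.sl π / 2) ≤ (D.s ^ r.h) ^ ((1 + p.c) * l) :=
    nm_ph_geo_pw hS hh h0 h1 hl (by rw [hp.1]; nlinarith)
  have e2 : (D.s ^ r.h) ^ r.Rm ≤ (D.s ^ r.h) ^ ((1 + p.c) * l) :=
    nm_pow_anti H.δ0 H.δ1 (by rw [hp.1]; have := hRm l hl; nlinarith)
  have e3 : (D.s ^ r.h) ^ ((1 + p.c) * l) ≤ 1 := Real.rpow_le_one H.δ0.le H.δ1.le (by positivity)
  have pt := nm_ph_pert (nmTan D π r (r.dsp π D.s)) hδ0 hδ1 hpc (by norm_num : (1 : ℝ) ≤ 70) hl0 act (hin.bd h0) (by linarith)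
    ⟨by linarith [mb.1], mb.2.1, by linarith [mb.2.2]⟩ (hcl.trans e1) (ν := D.smk π r ω)
    ⟨st.1.trans e2, st.2.1.trans e2, st.2.2.trans e2⟩ e3 le_rfl
  refine nm_ph_dsp_mono _ hδ0 (le_trans ?_ hsc.loss) pt
  unfold nmKq
  norm_num

/-- **T6**, quadratic branch -/
theorem nm_ph_geo_wq {π : SfPar} (hπ : π.Valid) {r : NmRt} (hr : r.Ok π 2) {pk : ItPk} (hpk : pk.Ok) (hS : r.Sm π pk) (hh : 0 < r.h)
    (D : SfDoc) {acc : ℝ} (hsc : NmSc D.s acc r π) (hlin : r.σ.lin = false) {l : ℝ} (hl : l ∈ pk.Lam) :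
    (D.P 1).NVal (fun _ => True) (D.nm π r.q r.a (r.v + l * r.h))
      (pair (fun ω => itHs (D.s ^ r.h) l (2 * l) (D.fst π r (D.side π r.q r.σ r.a ω))) (D.cs π r)) ((D.s ^ r.h) ^ (-acc)) := by
  have h0 := hsc.s0
  have h1 := hsc.s1
  have hl0 : 0 < l := hpk.2.2.2.2.2.1 l hl
  have hc := hr.rate
  have hsl := nm_ph_sl_pos hr
  have hδ0 : 0 < D.s ^ r.h := Real.rpow_pos_of_pos h0 _
  have hδ1 : D.s ^ r.h < 1 := Real.rpow_lt_one h0.le h1 hh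
  have hdoc := fun ω hω => nm_ph_doc hπ hr D h0 h1 (by linarith : 0 ≤ r.sl π / 2) hsc.thr ω hω
  simp only [hlin, Bool.not_false] at hdoc
  have e1 : D.s ^ (r.sl π / 2) ≤ (D.s ^ r.h) ^ (2 * l) := nm_ph_geo_pw hS hh h0 h1 hl (by nlinarith)
  have e2 : D.s ^ (r.v + l * r.h - r.v) = (D.s ^ r.h) ^ l := by rw [← Real.rpow_mul h0.le]; congr 1; ring
  intro ω₀
  obtain ⟨S, hS', hmem⟩ := nm_ph_wlist_q h0 h1 hr.g0 (nm_ph_width_q hπ hr hS hh hlin hl hl0) (D.cs π r ω₀)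
    {x | ∃ ω, (D.P 1).p ω ≠ 0 ∧ (itHs (D.s ^ r.h) l (2 * l) (D.fst π r (D.side π r.q r.σ r.a ω))
        = itHs (D.s ^ r.h) l (2 * l) (D.fst π r (D.side π r.q r.σ r.a ω₀)) ∧ D.cs π r ω = D.cs π r ω₀) ∧ x = D.raw π r.q.ds ω}
    (by
      rintro _ ⟨ω, hω, ⟨-, hA⟩, rfl⟩
      rw [← hA]
      exact (hdoc ω hω).1)
    (by
      rintro _ ⟨ω, hω, ⟨hA, hC⟩, rfl⟩ _ ⟨ω', hω', ⟨hA', hC'⟩, rfl⟩
      have := nm_ph_hs_of hδ0 hδ1 hl0 (hA.trans hA'.symm) (hdoc ω hω).2.2 ((hdoc ω hω).2.1.trans e1) ((hdoc ω' hω').2.1.trans e1)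
      rw [hC, hC'] at this
      rw [e2]
      exact this)
  exact ⟨S, hS'.trans hsc.loss, fun ω hω _ hA => hmem _ ⟨ω, hω, ⟨congrArg Prod.fst hA, congrArg Prod.snd hA⟩, rfl⟩⟩

/-- **T6**, linear branch -/
theorem nm_ph_geo_wl {π : SfPar} (hπ : π.Valid) {r : NmRt} (hr : r.Ok π 2) {pk : ItPk} (hpk : pk.Ok) (hS : r.Sm π pk) (hh : 0 < r.h)
    (D : SfDoc) {acc : ℝ} (hsc : NmSc D.s acc r π) (hlin : r.σ.lin = true) {l : ℝ} (hl : l ∈ pk.Lam) :
    (D.P 1).NVal (fun _ => True) (D.nm π r.q r.a (r.v + l * r.h))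
      (pair (fun ω => itF (D.s ^ r.h) l (D.fst π r (D.side π r.q r.σ r.a ω))) (D.cs π r)) ((D.s ^ r.h) ^ (-l - acc)) := by
  have h0 := hsc.s0
  have h1 := hsc.s1
  have hl0 : 0 < l := hpk.2.2.2.2.2.1 l hl
  have hc := hr.rate
  have hsl := nm_ph_sl_pos hr
  have ht : 0 < l * r.h := mul_pos hl0 hh
  have hδ0 : 0 < D.s ^ r.h := Real.rpow_pos_of_pos h0 _
  have hδ1 : D.s ^ r.h < 1 := Real.rpow_lt_one h0.le h1 hh
  have hdoc := fun ω hω => nm_ph_doc hπ hr D h0 h1 (by linarith : 0 ≤ r.sl π / 2) hsc.thr ω hω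
  simp only [hlin, Bool.not_true] at hdoc
  have e1 : D.s ^ (r.sl π / 2) ≤ (D.s ^ r.h) ^ l := nm_ph_geo_pw hS hh h0 h1 hl (by nlinarith)
  have e2 : D.s ^ (r.v + l * r.h - r.v) = (D.s ^ r.h) ^ l := by rw [← Real.rpow_mul h0.le]; congr 1; ring
  have e3 : D.s ^ (-(r.v + l * r.h - r.v)) = (D.s ^ r.h) ^ (-l) := by rw [← Real.rpow_mul h0.le]; congr 1; ring
  intro ω₀
  obtain ⟨S, hS', hmem⟩ := nm_ph_wlist_l h0 h1 hr.g0 (by linarith : r.v ≤ r.v + l * r.h)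
    ((nm_ph_lin_l hr hlin _ (by linarith)).trans (nm_ph_lin_l hr hlin r.v le_rfl).symm) (D.cs π r ω₀)
    {x | ∃ ω, (D.P 1).p ω ≠ 0 ∧ (itF (D.s ^ r.h) l (D.fst π r (D.side π r.q r.σ r.a ω))
        = itF (D.s ^ r.h) l (D.fst π r (D.side π r.q r.σ r.a ω₀)) ∧ D.cs π r ω = D.cs π r ω₀) ∧ x = D.raw π r.q.ds ω}
    (by
      rintro _ ⟨ω, hω, ⟨-, hA⟩, rfl⟩
      rw [← hA]
      exact (hdoc ω hω).1)
    (by
      rintro _ ⟨ω, hω, ⟨hA, hC⟩, rfl⟩ _ ⟨ω', hω', ⟨hA', hC'⟩, rfl⟩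
      have := nm_ph_iso_of hδ0 hδ1 (hA.trans hA'.symm) ((hdoc ω hω).2.1.trans e1) ((hdoc ω' hω').2.1.trans e1)
      rw [hC, hC'] at this
      rw [e2]
      exact this)
  refine ⟨S, hS'.trans ?_, fun ω hω _ hA => hmem _ ⟨ω, hω, ⟨congrArg Prod.fst hA, congrArg Prod.snd hA⟩, rfl⟩⟩
  rw [e3, show -l - acc = -acc + -l by ring, Real.rpow_add hδ0]
  refine mul_le_mul_of_nonneg_right (le_trans ?_ hsc.loss) (Real.rpow_pos_of_pos hδ0 _).le
  unfold nmKq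
  norm_num

/-- linear branch: the common phase has no derivative coordinate -/
theorem nm_ph_geo_lin0 (D : SfDoc) (π : SfPar) (r : NmRt) (hlin : r.σ.lin = true) (z : NmZv D.Idx) : (D.fst π r z).P = 0 := by
  unfold SfDoc.fst
  cases D.rpr π r.q r.σ r.a z with
  | none => rfl
  | some ω => simp [NmRaw.phase, hlin]

/-- **`NmGeo` at one configuration** -/
theorem nm_ph_geo_at {π : SfPar} (hπ : π.Valid) {r : NmRt} (hr : r.Ok π 2) (hB : 3 ≤ r.B) {pk : ItPk} (hpk : pk.Ok) (hS : r.Sm π pk) (hF : r.Fits π pk)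
    (D : SfDoc) {acc : ℝ} (hsc : NmSc D.s acc r π)
    (hT : ∀ ω, (D.P 1).p ω ≠ 0 → ∀ l ∈ pk.Lam, |(D.raw π r.q.ds ω).Te - (D.raw π r.q.ds ω).T| ≤ D.s ^ (r.a + l * r.h))
    {p : ItPar} (hp : r.Reg π (r.B + 1) p) : NmGeo (nmTan D π r (r.dsp π D.s)) p pk acc := by
  have h0 := hsc.s0
  have h1 := hsc.s1
  have hh : 0 < r.h := hF.1
  have hsl := nm_ph_sl_pos hr
  have hδ0 : 0 < D.s ^ r.h := Real.rpow_pos_of_pos h0 _
  have hδ1 : D.s ^ r.h < 1 := Real.rpow_lt_one h0.le h1 hh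
  have hRm : 0 ≤ r.Rm := by
    have := hF.2.2.2.2.1
    have := hpk.2.1
    have := hpk.2.2.1
    linarith
  refine ⟨⟨hδ0, hsc.sm, hδ1⟩, fun ω hω => ?_, fun ω _ => ?_, fun hq ω => ?_, ⟨?_, ?_, ?_, ?_⟩⟩
  · rw [hp.2.2]
    have := (nm_ph_doc hπ hr D h0 h1 (by linarith : 0 ≤ r.sl π / 2) hsc.thr ω hω).2.2
    show (D.fst π r (D.side π r.q r.σ r.a ω)).nrm ≤ r.B + 1
    linarith
  · rw [hp.2.2]
    exact nm_ph_store_bd hδ0 hδ1 hRm (by linarith) _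
  · exact nm_ph_geo_lin0 D π r (by simpa [nmTan] using hq) _
  · intro l _ ω ω' _ _ hO hC
    show r.dsp π D.s l (D.nm π r.q (r.a + l * r.h) r.v ω) (D.cs π r ω) = r.dsp π D.s l (D.nm π r.q (r.a + l * r.h) r.v ω') (D.cs π r ω')
    have e1 : D.nm π r.q (r.a + l * r.h) r.v ω = D.nm π r.q (r.a + l * r.h) r.v ω' := congrArg Prod.fst hO
    have e2 : D.cs π r ω = D.cs π r ω' := hC
    rw [e1, e2]
  · intro l hl ω hω
    exact nm_ph_geo_dsp hπ hr hB hpk hS hF D hsc hT hp hl ω hω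
  · intro hq l hl
    exact nm_ph_geo_wq hπ hr hpk hS hh D hsc (by simpa [nmTan] using hq) hl
  · intro hq l hl
    exact nm_ph_geo_wl hπ hr hpk hS hh D hsc (by simpa [nmTan] using hq) hl

/-- **CORE**: bounds of T0, T5, T6 at one root, explicit smallness of the gap -/
theorem nm_pha_geo_core (π : SfPar) (hπ : π.Valid) (C0 τ κ0 : ℝ) (r : NmRt) (hr : r.Ok π 2) (hB : 3 ≤ r.B) (pk : ItPk) (hpk : pk.Ok)
    (hS : r.Sm π pk) (hF : r.Fits π pk) :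
    NmA π C0 τ κ0 fun acc D => ∀ p : ItPar, r.Reg π (r.B + 1) p → NmGeo (nmTan D π r (r.dsp π D.s)) p pk acc := by
  intro acc hacc
  have hh : 0 < r.h := hF.1
  have hsl := nm_ph_sl_pos hr
  have hne := hpk.2.2.2.2.1
  obtain ⟨t1, ht1, hT⟩ := nm_gf_time π hπ C0 τ κ0 r.q hr.q (r.a + pk.Lam.max' hne * r.h) (hF.2.2.1 _ (pk.Lam.max'_mem hne))
  have hKq : (1 : ℝ) ≤ nmKq := by unfold nmKq; norm_num
  refine ⟨min t1 (min ((1 / 50) ^ (2 / (2 * (r.sl π / 2)))) (min ((acc / 2) ^ (1 / r.h)) ((1 / nmKq) ^ (2 / (acc * r.h))))),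
    lt_min ht1 (lt_min (by positivity) (lt_min (by positivity) (by positivity))), fun D hD _ p hp => ?_⟩
  obtain ⟨h0, h1⟩ := hD.ok.core.hs
  have s1 : D.s ≤ (1 / 50) ^ (2 / (2 * (r.sl π / 2))) := hD.sm.trans ((min_le_right _ _).trans (min_le_left _ _))
  have s2 : D.s ≤ (acc / 2) ^ (1 / r.h) := hD.sm.trans ((min_le_right _ _).trans ((min_le_right _ _).trans (min_le_left _ _)))
  have s3 : D.s ≤ (1 / nmKq) ^ (2 / (acc * r.h)) := hD.sm.trans ((min_le_right _ _).trans ((min_le_right _ _).trans (min_le_right _ _)))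
  refine nm_ph_geo_at hπ hr hB hpk hS hF D
    ⟨h0, h1, nm_ph_thr h0 h1 (by linarith) le_rfl s1, nm_ph_small hh hacc h0 s2, nm_ph_loss hKq hh hacc h0 h1 s3⟩ (fun ω hω l hl => ?_) hp
  refine hT D (nm_pro_fine_mono hD (min_le_left _ _) le_rfl) ω hω _ ?_
  have := mul_le_mul_of_nonneg_right (pk.Lam.le_max' l hl) hh.le
  linarith

theorem nm_ph_tan_eqns_cite : True := by
  have := @NmRt.dsp.eq_1
  trivial

end

end Claimed.Agent.R256
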