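import Claimed.Agent.R256.Nm.Pha.Kit

/-!
# Row 256, unit NM, sub-block NM-PHA, file 3: THE COMMON PHASE (Lemma names:common-phase, closeness)      (helper143; prefix `nm_ph`)

PAPER-FREE.   Two raw data `x` (actual), `y` (representative) which share the value of a side; frame `n = y.name (a,v)`.
* `nm_ph_own` : in its own frame every coordinate is `≤ 1` root unit.
* `nm_ph_co_core`, `nm_ph_close_co` : coarse side `(A,V)`: the two normalised phases are `50 s^e`-close.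
* `nm_ph_close_ex` : exact side.
IDENTITIES (`τ = t_a - t_A`, `dk = k_A - k_a`, `dR = R_A + τ k_A - R_a`, `dL = L_A - L`, `ξ = ΔX`, `ζ = ΔB_{t_a}`, `υ = ΔY_{t_a} - 2 y.X ζ`, `E0 = dL + 2 dR y.X - 2 dk y.B_{t_a} = (L_A - Lraw_A y) - (L - Lraw_a y)`):
`ζ = ΔB_{t_A} + τ ξ`;   `ΔY_{t_a} - 2 xc ζ = [ΔY_{t_A} - 2 x_V ΔB_{t_A}] + 2 (x_V - xc) ΔB_{t_A} + τ ξ (x.X + y.X - 2 xc)`;   `ΔLraw_a = ΔLraw_A + 2 dR ξ - 2 dk ζ`;
`ΔN~ = ΔNres_A + ξ E0 + dR ξ² + dk (υ - 2 ξ ζ)`;   `ΔD~ = ΔDres_A + τ ΔNres_A + ζ E0 + dR υ - dk ζ²`.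
-/

set_option autoImplicit false

namespace Claimed.Agent.R256

open Claimed.Agent.R255
open Classical

noncomputable section

/-- in its own frame every coordinate is at most one root unit -/
theorem nm_ph_own {s : ℝ} (h0 : 0 < s) (h1 : s < 1) (π : SfPar) (q : NmQ) (hg : q.g = 0) (a v : ℝ) (x : NmRaw) :
    |(x.fr s π q a v (x.name s π q a v)).X| ≤ s ^ v ∧ |(x.fr s π q a v (x.name s π q a v)).B| ≤ s ^ (a + v) ∧
    |(x.fr s π q a v (x.name s π q a v)).P| ≤ s ^ (q.l π a v) ∧ |(x.fr s π q a v (x.name s π q a v)).Y| ≤ s ^ (a + 2 * v) ∧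
    |(x.fr s π q a v (x.name s π q a v)).N| ≤ s ^ (q.w π a v) ∧ |(x.fr s π q a v (x.name s π q a v)).D| ≤ s ^ (a + q.w π a v) := by
  have e1 : s ^ (q.w π a v - q.g) = s ^ (q.w π a v) := by rw [hg, sub_zero]
  have e2 : s ^ (a + q.w π a v - q.g) = s ^ (a + q.w π a v) := by rw [hg, sub_zero]
  refine ⟨nm_rep_abs h0 h1 v x.z.X, nm_rep_abs h0 h1 (a + v) (x.z.Bt (x.ta s a)), nm_rep_abs h0 h1 (q.l π a v) (x.Lraw s q a),
    nm_rep_abs h0 h1 (a + 2 * v) (x.z.Yt (x.ta s a) - 2 * nmRep s v x.z.X * x.z.Bt (x.ta s a)), ?_, ?_⟩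
  · exact (nm_rep_abs h0 h1 (q.w π a v - q.g) (x.Nres s π q a v)).trans_eq e1
  · exact (nm_rep_abs h0 h1 (a + q.w π a v - q.g) (x.Dres s π q a v)).trans_eq e2

/-- coarse side, core estimate; `bb` = the exponent of the curvature scale at `A` (arbitrary if there is no curvature cut) -/
theorem nm_ph_co_core {s : ℝ} (h0 : 0 < s) (h1 : s < 1) {π : SfPar} {q : NmQ} (hg : q.g = 0) {quad : Bool} {A V a v e bb : ℝ}
    (hsl : NmSl π q quad A V a v e) (x y : NmRaw) (hn : x.name s π q A V = y.name s π q A V)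
    (hτ : NmO s (y.ta s a - y.ta s A) 1 A)
    (hdR : NmO s (y.Ra s q A + (y.ta s a - y.ta s A) * y.ka s q A - y.Ra s q a) 3 bb)
    (hdk : NmO s (y.ka s q A - y.ka s q a) 2 (bb - A))
    (hb1 : q.l π A V ≤ bb + V) (hb2 : q.l π a v + e ≤ bb + V) (hb3 : a + q.l π a v + e ≤ A + bb + V) :
    nmPhDist (x.phase s π q a v quad (y.name s π q a v)) (y.phase s π q a v quad (y.name s π q a v)) ≤ 50 * s ^ e := by
  have he := hsl.e0
  have hvV : v ≤ V := by linarith [hsl.s1]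
  have hw1 := nm_w_eq q π a v
  have hw2 := nm_w_eq q π A V
  -- shared bins at `(A, V)`
  have etA : x.ta s A = y.ta s A := nm_ph_rep_congr (congrArg NmNm.t hn)
  have eRA : x.Ra s q A = y.Ra s q A := nm_ph_rep_congr (congrArg NmNm.R hn)
  have ekA : x.ka s q A = y.ka s q A := nm_ph_rep_congr (congrArg NmNm.k hn)
  have eLA : x.La s π q A V = y.La s π q A V := nm_ph_rep_congr (congrArg NmNm.L hn)
  have exV : nmRep s V x.z.X = nmRep s V y.z.X := nm_ph_rep_congr (congrArg NmNm.X hn)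
  have cX : |x.z.X - y.z.X| ≤ s ^ V := nm_close_of_cell h0 h1 (congrArg NmNm.X hn)
  have cB : |x.z.Bt (x.ta s A) - y.z.Bt (y.ta s A)| ≤ s ^ (A + V) := nm_close_of_cell h0 h1 (congrArg NmNm.B hn)
  have cY : |(x.z.Yt (x.ta s A) - 2 * nmRep s V x.z.X * x.z.Bt (x.ta s A))
      - (y.z.Yt (y.ta s A) - 2 * nmRep s V y.z.X * y.z.Bt (y.ta s A))| ≤ s ^ (A + 2 * V) :=
    nm_close_of_cell h0 h1 (congrArg NmNm.Y hn)
  have cL : |x.Lraw s q A - y.Lraw s q A| ≤ s ^ (q.l π A V) := nm_close_of_cell h0 h1 (congrArg NmNm.L hn)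
  have cN : |x.Nres s π q A V - y.Nres s π q A V| ≤ s ^ (q.w π A V - q.g) := nm_close_of_cell h0 h1 (congrArg NmNm.N hn)
  have cD : |x.Dres s π q A V - y.Dres s π q A V| ≤ s ^ (A + q.w π A V - q.g) := nm_close_of_cell h0 h1 (congrArg NmNm.D hn)
  rw [hg, sub_zero] at cN cD
  rw [etA] at cB cY
  rw [exV] at cY
  -- abbreviations
  set tA : ℝ := y.ta s A with htA
  set t : ℝ := y.ta s a with ht
  set τ : ℝ := t - tA with hτd
  set RA : ℝ := y.Ra s q A with hRA
  set kA : ℝ := y.ka s q A with hkA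
  set Ra : ℝ := y.Ra s q a with hRa
  set ka : ℝ := y.ka s q a with hka
  set LA : ℝ := y.La s π q A V with hLA
  set L : ℝ := y.La s π q a v with hL
  set xV : ℝ := nmRep s V y.z.X with hxV
  set xc : ℝ := nmRep s v y.z.X with hxc
  set dR : ℝ := RA + τ * kA - Ra with hdRd
  set dk : ℝ := kA - ka with hdkd
  set dX : ℝ := x.z.X - y.z.X with hdX
  set aB : ℝ := x.z.Bt tA - y.z.Bt tA with haB
  set aY : ℝ := (x.z.Yt tA - 2 * xV * x.z.Bt tA) - (y.z.Yt tA - 2 * xV * y.z.Bt tA) with haY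
  set aL : ℝ := x.Lraw s q A - y.Lraw s q A with haL
  set aN : ℝ := x.Nres s π q A V - y.Nres s π q A V with haN
  set aD : ℝ := x.Dres s π q A V - y.Dres s π q A V with haD
  set e1 : ℝ := LA - y.Lraw s q A with he1
  set e2 : ℝ := L - y.Lraw s q a with he2
  have oX : NmO s dX 1 V := NmO.of_le cX
  have oaB : NmO s aB 1 (A + V) := NmO.of_le cB
  have oaY : NmO s aY 1 (A + 2 * V) := NmO.of_le cY
  have oaL : NmO s aL 1 (q.l π A V) := NmO.of_le cL
  have oaN : NmO s aN 1 (q.w π A V) := NmO.of_le cN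
  have oaD : NmO s aD 1 (A + q.w π A V) := NmO.of_le cD
  have oe1 : NmO s e1 1 (q.l π A V) := by
    have := nm_rep_abs h0 h1 (q.l π A V) (y.Lraw s q A)
    rw [abs_sub_comm] at this
    exact NmO.of_le this
  have oe2 : NmO s e2 1 (q.l π a v) := by
    have := nm_rep_abs h0 h1 (q.l π a v) (y.Lraw s q a)
    rw [abs_sub_comm] at this
    exact NmO.of_le this
  have oyV : NmO s (y.z.X - xV) 1 V := NmO.of_le (nm_rep_abs h0 h1 V y.z.X)
  have oyc : NmO s (y.z.X - xc) 1 v := NmO.of_le (nm_rep_abs h0 h1 v y.z.X)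
  -- the six differences
  set dB : ℝ := x.z.Bt t - y.z.Bt t with hdB
  have iB : dB = aB + τ * dX := by
    rw [hdB, haB, hτd, hdX]; unfold SfRay.Bt; ring
  have oB : NmO s dB 2 (A + V) := ((oaB.add (hτ.mul h0 oX)).congr iB).weak h0 h1 (by norm_num) le_rfl
  set dY : ℝ := (x.z.Yt t - 2 * xc * x.z.Bt t) - (y.z.Yt t - 2 * xc * y.z.Bt t) with hdY
  have iY : dY = aY + 2 * ((y.z.X - xc) - (y.z.X - xV)) * aB + τ * dX * (dX + 2 * (y.z.X - xc)) := by
    rw [hdY, haY, haB, hτd, hdX]; unfold SfRay.Bt SfRay.Yt; ring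
  have oY : NmO s dY 8 (A + V + v) := by
    have t1 : NmO s aY 1 (A + V + v) := oaY.weak h0 h1 le_rfl (by linarith)
    have t2 : NmO s (2 * ((y.z.X - xc) - (y.z.X - xV)) * aB) 4 (A + V + v) := by
      have u1 : NmO s ((y.z.X - xc) - (y.z.X - xV)) 2 v := (oyc.sub (oyV.weak h0 h1 le_rfl hvV)).weak h0 h1 (by norm_num) le_rfl
      have u2 := (u1.smul 2).mul h0 oaB
      exact u2.weak h0 h1 (by norm_num) (by linarith)
    have t3 : NmO s (τ * dX * (dX + 2 * (y.z.X - xc))) 3 (A + V + v) := by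
      have u1 : NmO s (dX + 2 * (y.z.X - xc)) 3 v := ((oX.weak h0 h1 le_rfl hvV).add (oyc.smul 2)).weak h0 h1 (by norm_num) le_rfl
      exact ((hτ.mul h0 oX).mul h0 u1).weak h0 h1 (by norm_num) (by linarith)
    exact (((t1.add t2).add t3).congr iY).weak h0 h1 (by norm_num) le_rfl
  set dP : ℝ := (x.P - 2 * Ra * x.z.X + 2 * ka * x.z.Bt t) - (y.P - 2 * Ra * y.z.X + 2 * ka * y.z.Bt t) with hdP
  have iP : dP = aL + 2 * (dR * dX) - 2 * (dk * dB) := by
    rw [hdP, haL, hdRd, hdkd, hdB, hdX, hτd]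
    unfold NmRaw.Lraw
    rw [eRA, ekA, etA]
    unfold SfRay.Bt
    ring
  have oP : NmO s dP 15 (q.l π A V) := by
    have t2 : NmO s (2 * (dR * dX)) 6 (q.l π A V) := ((hdR.mul h0 oX).smul 2).weak h0 h1 (by norm_num) hb1
    have t3 : NmO s (2 * (dk * dB)) 8 (q.l π A V) := ((hdk.mul h0 oB).smul 2).weak h0 h1 (by norm_num) (by linarith)
    exact (((oaL.add t2).sub t3).congr iP).weak h0 h1 (by norm_num) le_rfl
  set up : ℝ := dY + 2 * ((xc - y.z.X) * dB) with hup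
  have oup : NmO s up 12 (A + V + v) := by
    have u1 : NmO s (xc - y.z.X) 1 v := by
      have := oyc.neg
      rwa [neg_sub] at this
    exact (oY.add ((u1.mul h0 oB).smul 2 |>.weak h0 h1 (K' := 4) (by norm_num) (by linarith))).weak h0 h1 (by norm_num) le_rfl
  set dN : ℝ := (x.z.N - L * x.z.X - Ra * x.z.X ^ 2 - ka * (x.z.Yt t - 2 * x.z.X * x.z.Bt t))
      - (y.z.N - L * y.z.X - Ra * y.z.X ^ 2 - ka * (y.z.Yt t - 2 * y.z.X * y.z.Bt t)) with hdN
  have iN : dN = aN + dX * e1 - dX * e2 + dR * (dX * dX) + dk * up - 2 * (dk * (dX * dB)) := by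
    rw [hdN, haN, he1, he2, hup, hdY, hdRd, hdkd, hdB, hdX, hτd]
    unfold NmRaw.Nres NmRaw.Lraw
    rw [eRA, ekA, etA, eLA]
    unfold SfRay.Bt SfRay.Yt
    ring
  have oN : NmO s dN 38 (q.w π a v + e) := by
    have t1 : NmO s aN 1 (q.w π a v + e) := oaN.weak h0 h1 le_rfl hsl.s4
    have t2 : NmO s (dX * e1) 1 (q.w π a v + e) := (oX.mul h0 oe1).weak h0 h1 (by norm_num) (by linarith [hsl.s4])
    have t3 : NmO s (dX * e2) 1 (q.w π a v + e) := (oX.mul h0 oe2).weak h0 h1 (by norm_num) (by linarith [hsl.s1])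
    have t4 : NmO s (dR * (dX * dX)) 3 (q.w π a v + e) := (hdR.mul h0 (oX.mul h0 oX)).weak h0 h1 (by norm_num) (by linarith)
    have t5 : NmO s (dk * up) 24 (q.w π a v + e) := (hdk.mul h0 oup).weak h0 h1 (by norm_num) (by linarith)
    have t6 : NmO s (2 * (dk * (dX * dB))) 8 (q.w π a v + e) :=
      ((hdk.mul h0 (oX.mul h0 oB)).smul 2).weak h0 h1 (by norm_num) (by linarith)
    exact ((((((t1.add t2).sub t3).add t4).add t5).sub t6).congr iN).weak h0 h1 (by norm_num) le_rfl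
  set dD : ℝ := (x.z.Dt t - L * x.z.Bt t - Ra * x.z.Yt t + ka * x.z.Bt t ^ 2)
      - (y.z.Dt t - L * y.z.Bt t - Ra * y.z.Yt t + ka * y.z.Bt t ^ 2) with hdD
  have iD : dD = aD + τ * aN + dB * e1 - dB * e2 + dR * up - dk * (dB * dB) := by
    rw [hdD, haD, haN, he1, he2, hup, hdY, hdRd, hdkd, hdB, hτd]
    unfold NmRaw.Dres NmRaw.Nres NmRaw.Lraw
    rw [eRA, ekA, etA, eLA]
    unfold SfRay.Bt SfRay.Yt SfRay.Dt
    ring
  have oD : NmO s dD 50 (a + q.w π a v + e) := by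
    have t1 : NmO s aD 1 (a + q.w π a v + e) := oaD.weak h0 h1 le_rfl hsl.s5
    have t2 : NmO s (τ * aN) 1 (a + q.w π a v + e) := (hτ.mul h0 oaN).weak h0 h1 (by norm_num) hsl.s5
    have t3 : NmO s (dB * e1) 2 (a + q.w π a v + e) := (oB.mul h0 oe1).weak h0 h1 (by norm_num) (by linarith [hsl.s5])
    have t4 : NmO s (dB * e2) 2 (a + q.w π a v + e) := (oB.mul h0 oe2).weak h0 h1 (by norm_num) (by linarith [hsl.s2])
    have t5 : NmO s (dR * up) 36 (a + q.w π a v + e) := (hdR.mul h0 oup).weak h0 h1 (by norm_num) (by linarith)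
    have t6 : NmO s (dk * (dB * dB)) 8 (a + q.w π a v + e) := (hdk.mul h0 (oB.mul h0 oB)).weak h0 h1 (by norm_num) (by linarith)
    exact ((((((t1.add t2).add t3).sub t4).add t5).sub t6).congr iD).weak h0 h1 (by norm_num) le_rfl
  -- conclusion
  rw [nm_ph_phase, nm_ph_phase]
  have hE : 0 ≤ 50 * s ^ e := by positivity
  refine nm_ph_dist_le ?_ ?_ ?_ ?_ ?_ ?_
  · have e : (x.fr s π q a v (y.name s π q a v)).X / s ^ v - (y.fr s π q a v (y.name s π q a v)).X / s ^ v = dX / s ^ v := by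
      rw [← sub_div]; congr 1; simp only [NmRaw.fr]; ring
    show |(x.fr s π q a v (y.name s π q a v)).X / s ^ v - (y.fr s π q a v (y.name s π q a v)).X / s ^ v| ≤ _
    rw [e]
    exact oX.fin h0 h1 hsl.s1 (by norm_num)
  · have e : (x.fr s π q a v (y.name s π q a v)).B / s ^ (a + v) - (y.fr s π q a v (y.name s π q a v)).B / s ^ (a + v)
        = dB / s ^ (a + v) := by
      rw [← sub_div]; congr 1; simp only [NmRaw.fr, nm_ph_name_tv]; ring
    show |(x.fr s π q a v (y.name s π q a v)).B / s ^ (a + v) - (y.fr s π q a v (y.name s π q a v)).B / s ^ (a + v)| ≤ _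
    rw [e]
    exact oB.fin h0 h1 hsl.s2 (by norm_num)
  · cases quad with
    | false => simpa using hE
    | true =>
      have e : (x.fr s π q a v (y.name s π q a v)).P / s ^ (q.l π a v) - (y.fr s π q a v (y.name s π q a v)).P / s ^ (q.l π a v)
          = dP / s ^ (q.l π a v) := by
        rw [← sub_div]; congr 1; simp only [NmRaw.fr, nm_ph_name_tv, nm_ph_name_Rv, nm_ph_name_kv]; ring
      show |(x.fr s π q a v (y.name s π q a v)).P / s ^ (q.l π a v) - (y.fr s π q a v (y.name s π q a v)).P / s ^ (q.l π a v)| ≤ _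
      rw [e]
      exact oP.fin h0 h1 (hsl.s3 rfl) (by norm_num)
  · have e : (x.fr s π q a v (y.name s π q a v)).Y / s ^ (a + 2 * v) - (y.fr s π q a v (y.name s π q a v)).Y / s ^ (a + 2 * v)
        = dY / s ^ (a + 2 * v) := by
      rw [← sub_div]; congr 1; simp only [NmRaw.fr, nm_ph_name_tv, nm_ph_name_Xv]; ring
    show |(x.fr s π q a v (y.name s π q a v)).Y / s ^ (a + 2 * v) - (y.fr s π q a v (y.name s π q a v)).Y / s ^ (a + 2 * v)| ≤ _
    rw [e]
    exact oY.fin h0 h1 (by linarith [hsl.s2]) (by norm_num)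
  · have e : (x.fr s π q a v (y.name s π q a v)).N / s ^ (q.w π a v) - (y.fr s π q a v (y.name s π q a v)).N / s ^ (q.w π a v)
        = dN / s ^ (q.w π a v) := by
      rw [← sub_div]; congr 1; simp only [NmRaw.fr, nm_ph_name_tv, nm_ph_name_Rv, nm_ph_name_kv, nm_ph_name_Lv]; ring
    show |(x.fr s π q a v (y.name s π q a v)).N / s ^ (q.w π a v) - (y.fr s π q a v (y.name s π q a v)).N / s ^ (q.w π a v)| ≤ _
    rw [e]
    exact oN.fin h0 h1 le_rfl (by norm_num)
  · have e : (x.fr s π q a v (y.name s π q a v)).D / s ^ (a + q.w π a v) - (y.fr s π q a v (y.name s π q a v)).D / s ^ (a + q.w π a v)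
        = dD / s ^ (a + q.w π a v) := by
      rw [← sub_div]; congr 1; simp only [NmRaw.fr, nm_ph_name_tv, nm_ph_name_Rv, nm_ph_name_kv, nm_ph_name_Lv]; ring
    show |(x.fr s π q a v (y.name s π q a v)).D / s ^ (a + q.w π a v) - (y.fr s π q a v (y.name s π q a v)).D / s ^ (a + q.w π a v)| ≤ _
    rw [e]
    exact oD.fin h0 h1 le_rfl (by norm_num)

/-- `l(A,V) ≤ b(A) + V` if there is a curvature cut -/
theorem nm_ph_l_le {π : SfPar} {q : NmQ} (hq : q.Ok π) (hc : q.ds.cut ≠ NmCut.none) (A V : ℝ) : q.l π A V ≤ q.ds.b A + V := by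
  unfold NmQ.l
  cases h : q.tp with
  | quad => exact le_rfl
  | clip => exact min_le_left _ _
  | plin => exact absurd (hq.pl h) hc

/-- **coarse side**: the two normalised phases in the frame of the representative are `50 s^e`-close -/
theorem nm_ph_close_co {s : ℝ} (h0 : 0 < s) (h1 : s < 1) {π : SfPar} {q : NmQ} (hq : q.Ok π) (hg : q.g = 0) {quad : Bool} {A V a v e : ℝ}
    (hsl : NmSl π q quad A V a v e) (x y : NmRaw) (hn : x.name s π q A V = y.name s π q A V) :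
    nmPhDist (x.phase s π q a v quad (y.name s π q a v)) (y.phase s π q a v quad (y.name s π q a v)) ≤ 50 * s ^ e := by
  have hG : (⟨s, π, q, A, v, a, v⟩ : NmG).Ok := ⟨h0, h1, hq, hsl.hA, le_rfl⟩
  have a1 := nm_est_tau hG y
  have a2 := nm_est_dR hG y
  have a3 := nm_est_dk hG y
  have hτ : NmO s (y.ta s a - y.ta s A) 1 A := by
    apply NmO.of_le
    have e : (⟨s, π, q, A, v, a, v⟩ : NmG).tau ((⟨s, π, q, A, v, a, v⟩ : NmG).lo y) ((⟨s, π, q, A, v, a, v⟩ : NmG).hi y)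
      = y.ta s a - y.ta s A := rfl
    rw [e] at a1
    rw [abs_of_nonneg a1.1]
    exact a1.2
  have e2 : (⟨s, π, q, A, v, a, v⟩ : NmG).dR ((⟨s, π, q, A, v, a, v⟩ : NmG).lo y) ((⟨s, π, q, A, v, a, v⟩ : NmG).hi y)
      = y.Ra s q A + (y.ta s a - y.ta s A) * y.ka s q A - y.Ra s q a := rfl
  have e3 : (⟨s, π, q, A, v, a, v⟩ : NmG).dk ((⟨s, π, q, A, v, a, v⟩ : NmG).lo y) ((⟨s, π, q, A, v, a, v⟩ : NmG).hi y)
      = y.ka s q A - y.ka s q a := rfl
  rw [e2] at a2
  rw [e3] at a3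
  by_cases hc : q.ds.cut = NmCut.none
  · have hcs : (⟨s, π, q, A, v, a, v⟩ : NmG).cs = 0 := nm_gc_cs_none hc
    rw [hcs] at a2 a3
    simp only [mul_zero, zero_mul] at a2 a3
    have z2 := abs_nonpos_iff.1 a2
    have z3 := abs_nonpos_iff.1 a3
    set bb : ℝ := max (q.l π A V - V) (max (q.l π a v + e - V) (a + q.l π a v + e - A - V)) with hbb
    have b1 : q.l π A V - V ≤ bb := le_max_left _ _
    have b2 : q.l π a v + e - V ≤ bb := (le_max_left _ _).trans (le_max_right _ _)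
    have b3 : a + q.l π a v + e - A - V ≤ bb := (le_max_right _ _).trans (le_max_right _ _)
    refine nm_ph_co_core h0 h1 hg hsl x y hn hτ (bb := bb) ?_ ?_ (by linarith) (by linarith) (by linarith)
    · rw [z2]; exact NmO.zero h0 (by norm_num)
    · rw [z3]; exact NmO.zero h0 (by norm_num)
  · have hcs : (⟨s, π, q, A, v, a, v⟩ : NmG).cs = s ^ (q.ds.b A) := nm_gc_cs_eq hc
    rw [hcs] at a2 a3
    refine nm_ph_co_core h0 h1 hg hsl x y hn hτ (bb := q.ds.b A) a2 ?_ (nm_ph_l_le hq hc A V) (hsl.s6 hc) (by linarith [hsl.s7 hc])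
    have e4 : s ^ (q.ds.b A - A) = s ^ (q.ds.b A) * s ^ (-A) := by
      rw [← Real.rpow_add h0]; congr 1
    unfold NmO
    rw [e4, ← mul_assoc]
    exact a3

/-- **exact side**: the same residual ray; quadratic branch: the same bin of `P` at a depth `xs` -/
theorem nm_ph_close_ex {s : ℝ} (h0 : 0 < s) (h1 : s < 1) (π : SfPar) (q : NmQ) (quad : Bool) (a v xs : ℝ) (x y : NmRaw) (hz : x.z = y.z)
    (hP : quad = true → nmCell s xs x.P = nmCell s xs y.P) (n : NmNm) :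
    nmPhDist (x.phase s π q a v quad n) (y.phase s π q a v quad n) ≤ s ^ (xs - q.l π a v) := by
  have hE : 0 ≤ s ^ (xs - q.l π a v) := Real.rpow_nonneg h0.le _
  rw [nm_ph_phase, nm_ph_phase]
  refine nm_ph_dist_le ?_ ?_ ?_ ?_ ?_ ?_
  · simp only [NmRaw.fr, hz, sub_self, abs_zero]; exact hE
  · simp only [NmRaw.fr, hz, sub_self, abs_zero]; exact hE
  · cases quad with
    | false => simpa using hE
    | true =>
      have c := nm_close_of_cell h0 h1 (hP rfl)
      have e : (x.fr s π q a v n).P / s ^ (q.l π a v) - (y.fr s π q a v n).P / s ^ (q.l π a v) = (x.P - y.P) / s ^ (q.l π a v) := by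
        rw [← sub_div]; congr 1; simp only [NmRaw.fr, hz]; ring
      show |(x.fr s π q a v n).P / s ^ (q.l π a v) - (y.fr s π q a v n).P / s ^ (q.l π a v)| ≤ _
      rw [e]
      have := (NmO.of_le c).div h0 (q.l π a v)
      simpa using this
  · simp only [NmRaw.fr, hz, sub_self, abs_zero]; exact hE
  · simp only [NmRaw.fr, hz, sub_self, abs_zero]; exact hE
  · simp only [NmRaw.fr, hz, sub_self, abs_zero]; exact hE

end

end Claimed.Agent.R256
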