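import Claimed.Agent.R256.Nm.Base

/-!
# Row 256 (S0496), unit NM, sub-block NM-PHA (Lemma names:common-phase + T0, T5, T6 of `Tan.Adm`), file 1: VOCABULARY      (architect helper143; prefix `nm_ph`, types `NmI*`, `NmS*`, `NmC*`, `NmH*`)

PAPER-FREE.   Everything is deterministic on raw data `x y : NmRaw` and names `n c : NmNm`.
* `x.fr s π q a v n : ItPh` = the six UNNORMALISED coordinates of `x` in the frame of the root name `n` at `(a,v)`;   `nm_ph_phase` : `x.phase` = `x.fr` divided by `s^v, s^(a+v), s^l, s^(a+2v), s^w, s^(a+w)`.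
* `NmIn s π q a v quad x n` = `x` is SEEN in the frame `n`: same bins `kb, t, R, k` (linear branch: also `L`), all coordinates `≤ 2` root units.
* `NmSh s π q σ a x y` = `x`, `y` share the value of the side `σ` at the time root `a`.
* `NmSl π q quad A V a v e` = the slack inequalities of a coarse side.
* `NmHs η C f g` = two normalised phases are Heisenberg-close at the scale `η`.
* THE DISPLAY of a child name is `nmDsp` of `Nm/Grd/Dsp.lean` (helper190).
-/

set_option autoImplicit false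

namespace Claimed.Agent.R256

open Claimed.Agent.R255
open Classical

noncomputable section

/-- the six unnormalised coordinates of `x` in the frame of the root name `n` at `(a,v)` -/
def NmRaw.fr (x : NmRaw) (s : ℝ) (π : SfPar) (q : NmQ) (a v : ℝ) (n : NmNm) : ItPh where
  X := x.z.X - n.Xv s v
  B := x.z.Bt (n.tv s a) - n.Bv s a v
  P := x.P - 2 * n.Rv s q a * x.z.X + 2 * n.kv s q a * x.z.Bt (n.tv s a) - n.Lv s π q a v
  Y := x.z.Yt (n.tv s a) - 2 * n.Xv s v * x.z.Bt (n.tv s a) - n.Yv s a v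
  N := x.z.N - n.Lv s π q a v * x.z.X - n.Rv s q a * x.z.X ^ 2
    - n.kv s q a * (x.z.Yt (n.tv s a) - 2 * x.z.X * x.z.Bt (n.tv s a)) - n.Nv s π q a v
  D := x.z.Dt (n.tv s a) - n.Lv s π q a v * x.z.Bt (n.tv s a) - n.Rv s q a * x.z.Yt (n.tv s a)
    + n.kv s q a * x.z.Bt (n.tv s a) ^ 2 - n.Dv s π q a v

/-- the normalised phase is the frame coordinates divided by the root units -/
theorem nm_ph_phase (x : NmRaw) (s : ℝ) (π : SfPar) (q : NmQ) (a v : ℝ) (quad : Bool) (n : NmNm) :
    x.phase s π q a v quad n =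
      ⟨(x.fr s π q a v n).X / s ^ v, (x.fr s π q a v n).B / s ^ (a + v),
       if quad then (x.fr s π q a v n).P / s ^ (q.l π a v) else 0, (x.fr s π q a v n).Y / s ^ (a + 2 * v),
       (x.fr s π q a v n).N / s ^ (q.w π a v), (x.fr s π q a v n).D / s ^ (a + q.w π a v)⟩ := rfl

/-- `x` is seen in the frame of the root name `n` at `(a,v)` -/
structure NmIn (s : ℝ) (π : SfPar) (q : NmQ) (a v : ℝ) (quad : Bool) (x : NmRaw) (n : NmNm) : Prop where
  kb : x.kb = n.kb
  t : nmCell s a x.T = n.t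
  R : x.Rc s q a = n.R
  k : x.kc s q a = n.k
  L : quad = false → x.Lc s π q a v = n.L
  X : |(x.fr s π q a v n).X| ≤ 2 * s ^ v
  B : |(x.fr s π q a v n).B| ≤ 2 * s ^ (a + v)
  P : quad = true → |(x.fr s π q a v n).P| ≤ 2 * s ^ (q.l π a v)
  Y : |(x.fr s π q a v n).Y| ≤ 2 * s ^ (a + 2 * v)
  N : |(x.fr s π q a v n).N| ≤ 2 * s ^ (q.w π a v)
  D : |(x.fr s π q a v n).D| ≤ 2 * s ^ (a + q.w π a v)

/-- `x` and `y` share the value of the side `σ` at the time root `a` -/
structure NmSh (s : ℝ) (π : SfPar) (q : NmQ) (σ : NmSd) (a : ℝ) (x y : NmRaw) : Prop where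
  kb : x.kb = y.kb
  t : nmCell s a x.T = nmCell s a y.T
  R : x.Rc s q a = y.Rc s q a
  k : x.kc s q a = y.kc s q a
  L : σ.lin = true → nmCell s (π.b1 a) (x.Lraw s q a) = nmCell s (π.b1 a) (y.Lraw s q a)
  co : σ.exact = false → x.name s π q σ.A σ.V = y.name s π q σ.A σ.V
  ex : σ.exact = true → x.z = y.z
  exP : σ.exact = true → σ.lin = false → nmCell s σ.xs x.P = nmCell s σ.xs y.P

/-- the slack inequalities of a coarse side `(A, V)` at the root `(a, v)`, slack `e` -/
structure NmSl (π : SfPar) (q : NmQ) (quad : Bool) (A V a v e : ℝ) : Prop where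
  e0 : 0 < e
  hA : A ≤ a
  s1 : v + e ≤ V
  s2 : a + v + e ≤ A + V
  s3 : quad = true → q.l π a v + e ≤ q.l π A V
  s4 : q.w π a v + e ≤ q.w π A V
  s5 : a + q.w π a v + e ≤ A + q.w π A V
  s6 : q.ds.cut ≠ NmCut.none → q.l π a v + e ≤ q.ds.b A + V
  s7 : q.ds.cut ≠ NmCut.none → a + q.l π a v + e ≤ A + q.ds.b A + V

/-- two normalised phases are Heisenberg-close at the scale `η` -/
structure NmHs (η C : ℝ) (f g : ItPh) : Prop where
  X : |f.X - g.X| ≤ C * η
  B : |f.B - g.B| ≤ C * η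
  P : |f.P - g.P| ≤ C * η
  Y : |f.Y - g.Y - 2 * f.X * (f.B - g.B)| ≤ C * η ^ 2
  N : |f.N - g.N - f.P * (f.X - g.X)| ≤ C * η ^ 2
  D : |f.D - g.D - f.P * (f.B - g.B)| ≤ C * η ^ 2

/-- the curvature scale at the time root `a` (`0` if there is no curvature cut) -/
def NmQ.sg (q : NmQ) (s a : ℝ) : ℝ :=
  match q.ds.cut with
  | NmCut.none => 0
  | _ => s ^ (q.ds.b a)

theorem nm_ph_defs_eqns_cite : True := by
  have := @NmRaw.fr.eq_1; have := @NmQ.sg.eq_1
  trivial

end

end Claimed.Agent.R256
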