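import Claimed.Agent.R256.Nm.Pha.Defs

/-!
# Row 256, unit NM, sub-block NM-PHA, file 2: KIT      (helper143; prefix `nm_ph`)

PAPER-FREE.   Small tools: sup distances, values of bins, cells `tcell`, `trep` of R255, powers.
-/

set_option autoImplicit false

namespace Claimed.Agent.R256

open Claimed.Agent.R255
open Classical

noncomputable section

theorem nm_ph_dist_le {f g : ItPh} {E : ℝ} (hX : |f.X - g.X| ≤ E) (hB : |f.B - g.B| ≤ E) (hP : |f.P - g.P| ≤ E)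
    (hY : |f.Y - g.Y| ≤ E) (hN : |f.N - g.N| ≤ E) (hD : |f.D - g.D| ≤ E) : nmPhDist f g ≤ E := by
  unfold nmPhDist
  exact max_le (max_le (max_le hX hB) (max_le hP hY)) (max_le hN hD)

theorem nm_ph_dist_ge {f g : ItPh} {E : ℝ} (h : nmPhDist f g ≤ E) :
    |f.X - g.X| ≤ E ∧ |f.B - g.B| ≤ E ∧ |f.P - g.P| ≤ E ∧ |f.Y - g.Y| ≤ E ∧ |f.N - g.N| ≤ E ∧ |f.D - g.D| ≤ E := by
  unfold nmPhDist at h
  have h1 := (max_le_iff.1 h).1
  have h2 := (max_le_iff.1 h).2
  have h3 := (max_le_iff.1 h1).1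
  have h4 := (max_le_iff.1 h1).2
  exact ⟨(max_le_iff.1 h3).1, (max_le_iff.1 h3).2, (max_le_iff.1 h4).1, (max_le_iff.1 h4).2, (max_le_iff.1 h2).1, (max_le_iff.1 h2).2⟩

theorem nm_ph_nrm_le {f : ItPh} {E : ℝ} (hX : |f.X| ≤ E) (hB : |f.B| ≤ E) (hP : |f.P| ≤ E)
    (hY : |f.Y| ≤ E) (hN : |f.N| ≤ E) (hD : |f.D| ≤ E) : f.nrm ≤ E := by
  unfold ItPh.nrm
  exact max_le (max_le (max_le hX hB) (max_le hP hY)) (max_le hN hD)

theorem nm_ph_nrm_ge {f : ItPh} {E : ℝ} (h : f.nrm ≤ E) :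
    |f.X| ≤ E ∧ |f.B| ≤ E ∧ |f.P| ≤ E ∧ |f.Y| ≤ E ∧ |f.N| ≤ E ∧ |f.D| ≤ E := by
  unfold ItPh.nrm at h
  have h1 := (max_le_iff.1 h).1
  have h2 := (max_le_iff.1 h).2
  have h3 := (max_le_iff.1 h1).1
  have h4 := (max_le_iff.1 h1).2
  exact ⟨(max_le_iff.1 h3).1, (max_le_iff.1 h3).2, (max_le_iff.1 h4).1, (max_le_iff.1 h4).2, (max_le_iff.1 h2).1, (max_le_iff.1 h2).2⟩

/-- two bins whose left end points are `K s^b`-close differ by `≤ 2 K` -/
theorem nm_ph_val_close {s : ℝ} (h0 : 0 < s) (h1 : s < 1) {b K : ℝ} {n m : ℤ} (h : |nmVal s b n - nmVal s b m| ≤ K * s ^ b) :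
    |((n - m : ℤ) : ℝ)| ≤ 2 * K := by
  have hw := nm_wd_gt h0 h1 b
  have hwp := nm_wd_pos s b
  have e : nmVal s b n - nmVal s b m = ((n - m : ℤ) : ℝ) * nmWd s b := by
    unfold nmVal nmWd
    push_cast
    ring
  rw [e, abs_mul, abs_of_pos hwp] at h
  have hK : 0 ≤ K := by
    by_contra hK
    rw [not_le] at hK
    have : K * s ^ b < 0 := mul_neg_of_neg_of_pos hK (Real.rpow_pos_of_pos h0 _)
    have h3 : 0 ≤ |((n - m : ℤ) : ℝ)| * nmWd s b := by positivity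
    linarith
  have h2 : |((n - m : ℤ) : ℝ)| * nmWd s b ≤ (2 * K) * nmWd s b := by
    calc _ ≤ K * s ^ b := h
      _ ≤ K * (2 * nmWd s b) := mul_le_mul_of_nonneg_left hw.le hK
      _ = _ := by ring
  exact le_of_mul_le_mul_right h2 hwp

/-- `|x / S| ≤ K` from `|x| ≤ K S` -/
theorem nm_ph_div_le {x S K : ℝ} (hS : 0 < S) (h : |x| ≤ K * S) : |x / S| ≤ K := by
  rw [abs_div, abs_of_pos hS, div_le_iff₀ hS]
  exact h

theorem nm_ph_le_of_div {x S K : ℝ} (hS : 0 < S) (h : |x / S| ≤ K) : |x| ≤ K * S := by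
  rw [abs_div, abs_of_pos hS, div_le_iff₀ hS] at h
  exact h

/-- `s^b / s^c = s^(b-c)` as an inequality tool: `|x| ≤ K s^b` gives `|x / s^c| ≤ K s^(b-c)` -/
theorem nm_ph_div_pow {s : ℝ} (h0 : 0 < s) {x K b c : ℝ} (h : |x| ≤ K * s ^ b) : |x / s ^ c| ≤ K * s ^ (b - c) := by
  apply nm_ph_div_le (Real.rpow_pos_of_pos h0 _)
  rw [mul_assoc, ← Real.rpow_add h0]
  simpa using h

/-! ## the cells of R255 -/

theorem nm_ph_trep_abs {δ : ℝ} (h0 : 0 < δ) (h1 : δ < 1) (q x : ℝ) : |x - trep δ q x| ≤ δ ^ q := by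
  have hp : (0 : ℝ) < 2 ^ (tlev δ q) := by positivity
  have hlev : δ ^ (-q) ≤ (2 : ℝ) ^ (tlev δ q) := by
    have h2 : (2 : ℝ) ^ (Real.logb 2 (1 / δ)) = 1 / δ := Real.rpow_logb (by norm_num) (by norm_num) (by positivity)
    have h3 : δ ^ (-q) = (2 : ℝ) ^ (q * Real.logb 2 (1 / δ)) := by
      rw [mul_comm, Real.rpow_mul (by norm_num), h2, one_div, Real.inv_rpow h0.le, Real.rpow_neg h0.le]
    rw [h3, ← Real.rpow_natCast]
    exact Real.rpow_le_rpow_of_exponent_le (by norm_num) (Nat.le_ceil _)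
  have hm : 1 / (2 : ℝ) ^ (tlev δ q) ≤ δ ^ q := by
    rw [div_le_iff₀ hp]
    calc (1 : ℝ) = δ ^ q * δ ^ (-q) := by rw [← Real.rpow_add h0]; simp
      _ ≤ δ ^ q * 2 ^ (tlev δ q) := mul_le_mul_of_nonneg_left hlev (Real.rpow_nonneg h0.le _)
  have f1 := Int.floor_le (x * 2 ^ (tlev δ q))
  have f2 := Int.lt_floor_add_one (x * 2 ^ (tlev δ q))
  have e1 : trep δ q x ≤ x := by
    unfold trep tcell
    rw [div_le_iff₀ hp]
    exact f1
  have e2 : x < trep δ q x + 1 / 2 ^ (tlev δ q) := by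
    unfold trep tcell
    rw [← add_div, lt_div_iff₀ hp]
    exact f2
  rw [abs_le]
  constructor <;> linarith

theorem nm_ph_trep_congr {δ q x y : ℝ} (h : tcell δ q x = tcell δ q y) : trep δ q x = trep δ q y := by
  unfold trep
  rw [h]

theorem nm_ph_tcell_close {δ : ℝ} (h0 : 0 < δ) (h1 : δ < 1) {q x y : ℝ} (h : tcell δ q x = tcell δ q y) : |x - y| ≤ δ ^ q := by
  have hp : (0 : ℝ) < 2 ^ (tlev δ q) := by positivity
  have a1 := nm_ph_trep_abs h0 h1 q x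
  have hr := nm_ph_trep_congr h
  have f1 := Int.floor_le (x * 2 ^ (tlev δ q))
  have g1 := Int.floor_le (y * 2 ^ (tlev δ q))
  have e1 : trep δ q x ≤ x := by
    unfold trep tcell
    rw [div_le_iff₀ hp]
    exact f1
  have e2 : trep δ q y ≤ y := by
    unfold trep tcell
    rw [div_le_iff₀ hp]
    exact g1
  have a2 := nm_ph_trep_abs h0 h1 q y
  rw [abs_le] at a1 a2 ⊢
  constructor <;> linarith [a1.1, a1.2, a2.1, a2.2]

/-- a constant is absorbed by a small power: `C s^e ≤ s^(e/2)` for `s ≤ (1/C)^(2/e)` -/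
theorem nm_ph_absorb {C e s : ℝ} (hC : 1 ≤ C) (he : 0 < e) (h0 : 0 < s) (hs : s ≤ (1 / C) ^ (2 / e)) : C * s ^ e ≤ s ^ (e / 2) := by
  have hCp : 0 < C := by linarith
  have h2 : s ^ (e / 2) ≤ 1 / C := by
    calc s ^ (e / 2) ≤ ((1 / C) ^ (2 / e)) ^ (e / 2) := Real.rpow_le_rpow h0.le hs (by positivity)
      _ = 1 / C := by
        rw [← Real.rpow_mul (by positivity)]
        have : 2 / e * (e / 2) = 1 := by field_simp
        rw [this, Real.rpow_one]
  have h3 : s ^ e = s ^ (e / 2) * s ^ (e / 2) := by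
    rw [← Real.rpow_add h0]
    congr 1
    ring
  have hp : 0 < s ^ (e / 2) := Real.rpow_pos_of_pos h0 _
  rw [h3]
  calc C * (s ^ (e / 2) * s ^ (e / 2)) = (C * s ^ (e / 2)) * s ^ (e / 2) := by ring
    _ ≤ 1 * s ^ (e / 2) := by
        apply mul_le_mul_of_nonneg_right _ hp.le
        calc C * s ^ (e / 2) ≤ C * (1 / C) := mul_le_mul_of_nonneg_left h2 hCp.le
          _ = 1 := by field_simp
    _ = _ := one_mul _

/-! ## the calculus of `O(s^c)` -/

/-- `u = O(K s^c)` -/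
def NmO (s u K c : ℝ) : Prop := |u| ≤ K * s ^ c

namespace NmO

variable {s u w K K' c c' : ℝ}

theorem nonneg (h0 : 0 < s) (h : NmO s u K c) : 0 ≤ K := by
  by_contra hK
  rw [not_le] at hK
  have : K * s ^ c < 0 := mul_neg_of_neg_of_pos hK (Real.rpow_pos_of_pos h0 _)
  have h2 : |u| ≤ K * s ^ c := h
  linarith [abs_nonneg u]

theorem mul (h0 : 0 < s) (hu : NmO s u K c) (hw : NmO s w K' c') : NmO s (u * w) (K * K') (c + c') := by
  have h := nm_gd_mul hu hw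
  unfold NmO
  rw [Real.rpow_add h0]
  calc |u * w| ≤ K * s ^ c * (K' * s ^ c') := h
    _ = _ := by ring

theorem weak (h0 : 0 < s) (h1 : s < 1) (hu : NmO s u K c) (hK : K ≤ K') (hc : c' ≤ c) : NmO s u K' c' := by
  have hn := hu.nonneg h0
  unfold NmO at hu ⊢
  calc |u| ≤ K * s ^ c := hu
    _ ≤ K' * s ^ c' := mul_le_mul hK (nm_pow_anti h0 h1 hc) (Real.rpow_nonneg h0.le _) (hn.trans hK)

theorem add (hu : NmO s u K c) (hw : NmO s w K' c) : NmO s (u + w) (K + K') c := by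
  unfold NmO at hu hw ⊢
  calc |u + w| ≤ |u| + |w| := abs_add_le _ _
    _ ≤ K * s ^ c + K' * s ^ c := add_le_add hu hw
    _ = _ := by ring

theorem neg (hu : NmO s u K c) : NmO s (-u) K c := by
  unfold NmO at hu ⊢
  rwa [abs_neg]

theorem sub (hu : NmO s u K c) (hw : NmO s w K' c) : NmO s (u - w) (K + K') c := by
  rw [sub_eq_add_neg]
  exact hu.add hw.neg

theorem smul (r : ℝ) (hu : NmO s u K c) : NmO s (r * u) (|r| * K) c := by
  unfold NmO at hu ⊢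
  rw [abs_mul, mul_assoc]
  exact mul_le_mul_of_nonneg_left hu (abs_nonneg _)

theorem zero (h0 : 0 < s) (hK : 0 ≤ K) : NmO s 0 K c := by
  unfold NmO
  rw [abs_zero]
  exact mul_nonneg hK (Real.rpow_nonneg h0.le _)

theorem of_le (h : |u| ≤ s ^ c) : NmO s u 1 c := by
  unfold NmO
  rwa [one_mul]

theorem congr (hu : NmO s u K c) (e : w = u) : NmO s w K c := e ▸ hu

/-- division by a root unit -/
theorem div (h0 : 0 < s) (hu : NmO s u K c) (b : ℝ) : |u / s ^ b| ≤ K * s ^ (c - b) := nm_ph_div_pow h0 hu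

end NmO

/-! ## the real numbers coded by the own name -/

section own

variable (x : NmRaw) (s : ℝ) (π : SfPar) (q : NmQ) (a v : ℝ)

theorem nm_ph_name_tv : (x.name s π q a v).tv s a = x.ta s a := rfl
theorem nm_ph_name_Rv : (x.name s π q a v).Rv s q a = x.Ra s q a := rfl
theorem nm_ph_name_kv : (x.name s π q a v).kv s q a = x.ka s q a := rfl
theorem nm_ph_name_Lv : (x.name s π q a v).Lv s π q a v = x.La s π q a v := rfl
theorem nm_ph_name_Xv : (x.name s π q a v).Xv s v = nmRep s v x.z.X := rfl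
theorem nm_ph_name_Bv : (x.name s π q a v).Bv s a v = nmRep s (a + v) (x.z.Bt (x.ta s a)) := rfl
theorem nm_ph_name_Yv : (x.name s π q a v).Yv s a v
    = nmRep s (a + 2 * v) (x.z.Yt (x.ta s a) - 2 * nmRep s v x.z.X * x.z.Bt (x.ta s a)) := rfl
theorem nm_ph_name_Nv : (x.name s π q a v).Nv s π q a v = nmRep s (q.w π a v - q.g) (x.Nres s π q a v) := rfl
theorem nm_ph_name_Dv : (x.name s π q a v).Dv s π q a v = nmRep s (a + q.w π a v - q.g) (x.Dres s π q a v) := rfl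

end own

theorem nm_ph_rep_congr {s b x y : ℝ} (h : nmCell s b x = nmCell s b y) : nmRep s b x = nmRep s b y := by
  unfold nmRep
  rw [h]

/-- finishing step: `u = O(K s^c)`, `b + e ≤ c`, gives `|u / s^b| ≤ K' s^e` -/
theorem NmO.fin {s u K K' c b e : ℝ} (h0 : 0 < s) (h1 : s < 1) (hu : NmO s u K c) (hc : b + e ≤ c) (hK : K ≤ K') :
    |u / s ^ b| ≤ K' * s ^ e := by
  have h := (hu.weak h0 h1 hK hc).div h0 b
  simpa using h

theorem nm_ph_kit_eqns_cite : True := by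
  have := @NmO.eq_1
  trivial

end

end Claimed.Agent.R256
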